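import Vale.Agent.P284.H608.K.Spec
import Vale.Agent.P284.H366.LA1
import Vale.Agent.P272.K.C2.Mat
import Vale.Agent.P284.H366.SL1
import Mathlib.Analysis.Normed.Module.FiniteDimension

/-!
# Kähler version: uniform bounds for the norms of forms on compact sets
-/

open scoped ContDiff Topology ComplexConjugate ComplexOrder ENNReal
open Filter Set MeasureTheory Metric

noncomputable section

set_option linter.unusedSectionVars false

namespace Vale.Agent.P284.H366.K

open Vale.Agent.P272.K Vale.Agent.P284.H608.K Vale.Agent.P284.H366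

variable {n p : ℕ}

/-! ### finite dimension -/

/-- the coordinates of a form -/
def evL (n p : ℕ) : Af n p →ₗ[ℂ] ((Fin p → Fin n) → ℂ) where
  toFun A s := ev A s
  map_add' _ _ := rfl
  map_smul' _ _ := rfl

lemma ext_ev {A B : Af n p} (h : ∀ s, ev A s = ev B s) : A = B := by
  ext ξ
  rw [← expandL A ξ, ← expandL B ξ]
  exact Finset.sum_congr rfl fun J _ => by
    have := h J
    unfold ev at this
    show cJ ξ J • A (eJ J) = cJ ξ J • B (eJ J)
    rw [show A (eJ J) = B (eJ J) from this]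

lemma evL_inj : Function.Injective (evL n p) := fun _ _ h => ext_ev fun s => congrFun h s

instance finAf : FiniteDimensional ℂ (Af n p) := Module.Finite.of_injective (evL n p) evL_inj

lemma ev_cont (s : Fin p → Fin n) : Continuous fun A : Af n p => ev A s :=
  (ContinuousAlternatingMap.apply ℂ (Cm n) ℂ (fun i => (Pi.single (s i) 1 : Cm n))).continuous

/-! ### sesquilinearity -/

variable (w : Matrix (Fin n) (Fin n) ℂ)

lemma ev_add (A B : Af n p) (s : Fin p → Fin n) : ev (A + B) s = ev A s + ev B s := rfl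
lemma ev_smul (c : ℂ) (A : Af n p) (s : Fin p → Fin n) : ev (c • A) s = c * ev A s := rfl

lemma hn_add_left (A B D : Af n p) : hn w (A + B) D = hn w A D + hn w B D := by
  unfold hn
  rw [← mul_add, ← Finset.sum_add_distrib]
  congr 1
  refine Finset.sum_congr rfl fun s _ => ?_
  rw [← Finset.sum_add_distrib]
  refine Finset.sum_congr rfl fun t _ => ?_
  rw [ev_add]
  ring

lemma hn_add_right (A B D : Af n p) : hn w A (B + D) = hn w A B + hn w A D := by
  unfold hn
  rw [← mul_add, ← Finset.sum_add_distrib]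
  congr 1
  refine Finset.sum_congr rfl fun s _ => ?_
  rw [← Finset.sum_add_distrib]
  refine Finset.sum_congr rfl fun t _ => ?_
  rw [ev_add, map_add]
  ring

lemma hn_smul_left (c : ℂ) (A B : Af n p) : hn w (c • A) B = c * hn w A B := by
  unfold hn
  rw [mul_left_comm c]
  congr 1
  rw [Finset.mul_sum]
  refine Finset.sum_congr rfl fun s _ => ?_
  rw [Finset.mul_sum]
  refine Finset.sum_congr rfl fun t _ => ?_
  rw [ev_smul]
  ring

lemma hn_smul_right (c : ℂ) (A B : Af n p) : hn w A (c • B) = conj c * hn w A B := by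
  unfold hn
  rw [mul_left_comm (conj c)]
  congr 1
  rw [Finset.mul_sum]
  refine Finset.sum_congr rfl fun s _ => ?_
  rw [Finset.mul_sum]
  refine Finset.sum_congr rfl fun t _ => ?_
  rw [ev_smul, map_mul]
  ring

lemma ev_zero (s : Fin p → Fin n) : ev (0 : Af n p) s = 0 := rfl

lemma zsm (A : Af n p) : (0 : ℂ) • A = 0 := ext_ev fun s => by
  rw [ev_smul, zero_mul, ev_zero]

lemma smz (c : ℂ) : c • (0 : Af n p) = 0 := ext_ev fun s => by
  rw [ev_smul, ev_zero, mul_zero]

lemma hn_zero_left (B : Af n p) : hn w 0 B = 0 := by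
  simp [hn, ev_zero]

lemma hn_zero_right (A : Af n p) : hn w A 0 = 0 := by
  simp [hn, ev_zero]

lemma hn_sum_left {ι : Type*} (s : Finset ι) (A : ι → Af n p) (B : Af n p) :
    hn w (∑ i ∈ s, A i) B = ∑ i ∈ s, hn w (A i) B := by
  classical
  induction s using Finset.induction_on with
  | empty => simp [hn_zero_left]
  | insert i s hi ih => rw [Finset.sum_insert hi, Finset.sum_insert hi, hn_add_left, ih]

lemma hn_sum_right {ι : Type*} (s : Finset ι) (A : Af n p) (B : ι → Af n p) :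
    hn w A (∑ i ∈ s, B i) = ∑ i ∈ s, hn w A (B i) := by
  classical
  induction s using Finset.induction_on with
  | empty => simp [hn_zero_right]
  | insert i s hi ih => rw [Finset.sum_insert hi, Finset.sum_insert hi, hn_add_right, ih]

lemma hn_smul_self (c : ℂ) (A : Af n p) : (hn w (c • A) (c • A)).re = ‖c‖ ^ 2 * (hn w A A).re := by
  rw [hn_smul_left, hn_smul_right, ← mul_assoc, Complex.mul_conj, Complex.normSq_eq_norm_sq,
    Complex.re_ofReal_mul]

lemma hn_self_nonneg (h1 : K1Stmt) {w : Matrix (Fin n) (Fin n) ℂ} (hw : w.PosDef) (A : Af n p) :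
    0 ≤ (hn w A A).re := by
  by_cases h : A = 0
  · rw [h, hn_zero_left]
    simp
  · exact (Complex.lt_def.1 (h1.pos n p w hw A h)).1.le

/-- parallelogram inequality -/
lemma hn_sub_le (h1 : K1Stmt) {w : Matrix (Fin n) (Fin n) ℂ} (hw : w.PosDef) (A B : Af n p) :
    (hn w (A - B) (A - B)).re ≤ 2 * (hn w A A).re + 2 * (hn w B B).re := by
  have h2 := hn_self_nonneg h1 hw (A + B)
  have e : hn w (A - B) (A - B) + hn w (A + B) (A + B) = 2 * hn w A A + 2 * hn w B B := by
    rw [sub_eq_add_neg, ← neg_one_smul ℂ B]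
    simp only [hn_add_left, hn_add_right, hn_smul_left, hn_smul_right, map_neg, map_one]
    ring
  have h3 := congrArg Complex.re e
  simp only [Complex.add_re, Complex.mul_re, Complex.re_ofNat, Complex.im_ofNat, zero_mul,
    sub_zero] at h3
  linarith

/-! ### `Tn` -/

lemma Tn_smul_self (c : ℂ) (T : Fin n → Af n p) :
    (Tn w (c • T)).re = ‖c‖ ^ 2 * (Tn w T).re := by
  have e : Tn w (c • T) = ((‖c‖ ^ 2 : ℝ) : ℂ) * Tn w T := by
    unfold Tn
    rw [Finset.mul_sum]
    refine Finset.sum_congr rfl fun b _ => ?_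
    rw [Finset.mul_sum]
    refine Finset.sum_congr rfl fun b' _ => ?_
    rw [Pi.smul_apply, Pi.smul_apply, hn_smul_left, hn_smul_right]
    have : ((‖c‖ ^ 2 : ℝ) : ℂ) = c * conj c := by
      rw [Complex.mul_conj, Complex.normSq_eq_norm_sq]
    rw [this]
    ring
  rw [e, Complex.re_ofReal_mul]

/-- strict positivity of `Tn` -/
lemma Tn_pos (h1 : K1Stmt) {w : Matrix (Fin n) (Fin n) ℂ} (hw : w.PosDef) {T : Fin n → Af n p}
    (hT : T ≠ 0) : 0 < (Tn w T).re := by
  classical
  obtain ⟨B, hB, hBd⟩ : ∃ B : Matrix (Fin n) (Fin n) ℂ, w⁻¹ = B.conjTranspose * B ∧ IsUnit B.det := by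
    have h2 := hw.inv
    obtain ⟨B, hB⟩ : ∃ B : Matrix (Fin n) (Fin n) ℂ, w⁻¹ = B.conjTranspose * B :=
      exists_sq h2.posSemidef
    refine ⟨B, hB, ?_⟩
    have h4 : IsUnit (w⁻¹).det := h2.det_pos.ne'.isUnit
    rw [hB, Matrix.det_mul] at h4
    exact isUnit_of_mul_isUnit_right h4
  set T' : Fin n → Af n p := fun k => ∑ b, conj (B k b) • T b with hT'
  have e : Tn w T = ∑ k, hn w (T' k) (T' k) := by
    unfold Tn
    simp only [hT', hn_sum_left, hn_sum_right, hn_smul_left, hn_smul_right, Complex.conj_conj]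
    have e1 : ∀ b b', w⁻¹ b b' = ∑ k, conj (B k b) * B k b' := by
      intro b b'
      rw [hB, Matrix.mul_apply]
      rfl
    simp only [e1, Finset.sum_mul, Finset.mul_sum]
    refine (Finset.sum_congr rfl fun b _ => Finset.sum_comm).trans ?_
    rw [Finset.sum_comm]
    refine Finset.sum_congr rfl fun k _ => ?_
    rw [Finset.sum_comm]
    refine Finset.sum_congr rfl fun b _ => ?_
    refine Finset.sum_congr rfl fun b' _ => ?_
    ring
  rw [e, Complex.re_sum]
  have hne : ∃ k, T' k ≠ 0 := by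
    by_contra hcon
    push Not at hcon
    apply hT
    -- `T = conj(B)⁻¹ T'`
    set Bc : Matrix (Fin n) (Fin n) ℂ := B.map (starRingEnd ℂ) with hBc
    have hBcd : IsUnit Bc.det := by
      have : Bc.det = conj B.det := by
        rw [hBc]
        exact (RingHom.map_det (starRingEnd ℂ) B).symm
      rw [this]
      exact hBd.map (starRingEnd ℂ)
    funext b
    have h5 : T b = ∑ k, Bc⁻¹ b k • T' k := by
      simp only [hT', Finset.smul_sum, smul_smul]
      rw [Finset.sum_comm]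
      have h6 : ∀ b', ∑ k, (Bc⁻¹ b k * conj (B k b')) • T b' = ((Bc⁻¹ * Bc) b b') • T b' := by
        intro b'
        rw [← Finset.sum_smul, Matrix.mul_apply]
        rfl
      rw [Finset.sum_congr rfl fun b' _ => h6 b', Matrix.nonsing_inv_mul _ hBcd,
        Finset.sum_eq_single b]
      · rw [Matrix.one_apply_eq]
        exact ext_ev fun s => by rw [ev_smul, one_mul]
      · intro b' _ hb'
        rw [Matrix.one_apply_ne hb'.symm]
        exact zsm _
      · intro h
        exact absurd (Finset.mem_univ _) h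
    rw [h5]
    refine Finset.sum_eq_zero fun k _ => ?_
    rw [hcon k]
    exact smz _
  obtain ⟨k, hk⟩ := hne
  refine Finset.sum_pos' (fun k _ => hn_self_nonneg h1 hw _) ⟨k, Finset.mem_univ k, ?_⟩
  exact (Complex.lt_def.1 (h1.pos n p w hw _ hk)).1

/-! ### uniform bounds -/

section unif
variable {V : Type} [NormedAddCommGroup V] [NormedSpace ℂ V] [FiniteDimensional ℂ V]

/-- a continuous family of definite quadratic forms is uniformly definite on compact sets -/
lemma unif_lower {S : Set (Cm n)} (hS : IsCompact S) {q : Cm n → V → ℝ}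
    (hq : ContinuousOn (fun x : Cm n × V => q x.1 x.2) (S ×ˢ univ))
    (hh : ∀ z (a : ℂ) v, q z (a • v) = ‖a‖ ^ 2 * q z v) (hpos : ∀ z ∈ S, ∀ v, v ≠ 0 → 0 < q z v) :
    ∃ c : ℝ, 0 < c ∧ ∀ z ∈ S, ∀ v, c * ‖v‖ ^ 2 ≤ q z v := by
  have : ProperSpace V := FiniteDimensional.proper ℂ V
  have hK : IsCompact (S ×ˢ sphere (0 : V) 1) := hS.prod (isCompact_sphere 0 1)
  obtain ⟨c, hc, hcS⟩ : ∃ c : ℝ, 0 < c ∧ ∀ z ∈ S, ∀ v, ‖v‖ = 1 → c ≤ q z v := by
    rcases (S ×ˢ sphere (0 : V) 1).eq_empty_or_nonempty with h | h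
    · refine ⟨1, one_pos, fun z hz v hv => ?_⟩
      have : (z, v) ∈ S ×ˢ sphere (0 : V) 1 := ⟨hz, by simpa using hv⟩
      rw [h] at this
      exact absurd this (notMem_empty _)
    · obtain ⟨x, hx, hmin⟩ := hK.exists_isMinOn h (hq.mono (prod_mono_right (subset_univ _)))
      have hx2 : x.2 ≠ 0 := by
        intro h0
        have := hx.2
        rw [h0] at this
        simp at this
      refine ⟨q x.1 x.2, hpos x.1 hx.1 x.2 hx2, fun z hz v hv => ?_⟩
      exact hmin (a := (z, v)) ⟨hz, by simpa using hv⟩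
  refine ⟨c, hc, fun z hz v => ?_⟩
  by_cases hv : v = 0
  · have h0 := hh z 0 v
    rw [zero_smul, norm_zero] at h0
    rw [hv, h0]
    simp
  · have hn0 : ‖v‖ ≠ 0 := norm_ne_zero_iff.2 hv
    have h1 := hcS z hz (((‖v‖⁻¹ : ℝ) : ℂ) • v) (by
      rw [norm_smul, Complex.norm_real, norm_inv, norm_norm, inv_mul_cancel₀ hn0])
    rw [hh, Complex.norm_real, norm_inv, norm_norm] at h1
    have h2 : 0 < ‖v‖ ^ 2 := by positivity
    have h3 := mul_le_mul_of_nonneg_left h1 h2.le
    calc c * ‖v‖ ^ 2 = ‖v‖ ^ 2 * c := mul_comm _ _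
      _ ≤ ‖v‖ ^ 2 * (‖v‖⁻¹ ^ 2 * q z v) := h3
      _ = q z v := by
        rw [← mul_assoc, ← mul_pow, mul_inv_cancel₀ hn0, one_pow, one_mul]

/-- a continuous family of quadratic forms is bounded on compact sets -/
lemma unif_upper {S : Set (Cm n)} (hS : IsCompact S) {q : Cm n → V → ℝ}
    (hq : ContinuousOn (fun x : Cm n × V => q x.1 x.2) (S ×ˢ univ))
    (hh : ∀ z (a : ℂ) v, q z (a • v) = ‖a‖ ^ 2 * q z v) :
    ∃ B : ℝ, 0 < B ∧ ∀ z ∈ S, ∀ v, q z v ≤ B * ‖v‖ ^ 2 := by
  have : ProperSpace V := FiniteDimensional.proper ℂ V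
  have hK : IsCompact (S ×ˢ sphere (0 : V) 1) := hS.prod (isCompact_sphere 0 1)
  obtain ⟨B, hB⟩ := hK.exists_bound_of_continuousOn (hq.mono (prod_mono_right (subset_univ _)))
  refine ⟨|B| + 1, by positivity, fun z hz v => ?_⟩
  by_cases hv : v = 0
  · have h0 := hh z 0 v
    rw [zero_smul, norm_zero] at h0
    rw [hv, h0]
    simp
  · have hn0 : ‖v‖ ≠ 0 := norm_ne_zero_iff.2 hv
    have h1 := hB (z, ((‖v‖⁻¹ : ℝ) : ℂ) • v) ⟨hz, by
      rw [mem_sphere_zero_iff_norm, norm_smul, Complex.norm_real, norm_inv, norm_norm,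
        inv_mul_cancel₀ hn0]⟩
    simp only at h1
    rw [hh, Complex.norm_real, norm_inv, norm_norm, Real.norm_eq_abs] at h1
    have h2 : 0 < ‖v‖ ^ 2 := by positivity
    have h3 := mul_le_mul_of_nonneg_left ((le_abs_self _).trans (h1.trans (le_abs_self B))) h2.le
    have h4 : q z v = ‖v‖ ^ 2 * (‖v‖⁻¹ ^ 2 * q z v) := by
      rw [← mul_assoc, ← mul_pow, mul_inv_cancel₀ hn0, one_pow, one_mul]
    rw [h4]
    refine h3.trans ?_
    nlinarith [abs_nonneg B]

end unif

section bounds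
variable {S : Set (Cm n)} {w : Cm n → Matrix (Fin n) (Fin n) ℂ}

lemma inv_contOn (hw : ∀ z ∈ S, ∀ j k, ContDiffAt ℝ ∞ (fun z => w z j k) z)
    (hpos : ∀ z ∈ S, (w z).PosDef) (j k : Fin n) : ContinuousOn (fun z => (w z)⁻¹ j k) S := by
  intro z hz
  have h1 : Vale.Agent.P272.K.C2.MC ∞ w z := fun j k => hw z hz j k
  exact (h1.inv (hpos z hz).det_pos.ne' j k).continuousAt.continuousWithinAt

lemma hn_contOn (hw : ∀ z ∈ S, ∀ j k, ContDiffAt ℝ ∞ (fun z => w z j k) z)
    (hpos : ∀ z ∈ S, (w z).PosDef) :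
    ContinuousOn (fun x : Cm n × (Af n p × Af n p) => hn (w x.1) x.2.1 x.2.2) (S ×ˢ univ) := by
  unfold hn
  refine continuousOn_const.mul ?_
  refine continuousOn_finsetSum _ fun s _ => continuousOn_finsetSum _ fun t _ => ?_
  refine ContinuousOn.mul ?_ ?_
  · refine Continuous.continuousOn ?_
    exact ((ev_cont s).comp (continuous_fst.comp continuous_snd)).mul
      (Complex.continuous_conj.comp ((ev_cont t).comp (continuous_snd.comp continuous_snd)))
  · refine continuousOn_finsetProd _ fun i _ => ?_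
    exact (inv_contOn hw hpos (t i) (s i)).comp continuous_fst.continuousOn fun x hx => hx.1

lemma hn_contOn' (hw : ∀ z ∈ S, ∀ j k, ContDiffAt ℝ ∞ (fun z => w z j k) z)
    (hpos : ∀ z ∈ S, (w z).PosDef) :
    ContinuousOn (fun x : Cm n × Af n p => (hn (w x.1) x.2 x.2).re) (S ×ˢ univ) := by
  refine Complex.continuous_re.comp_continuousOn ?_
  exact (hn_contOn hw hpos).comp (f := fun x : Cm n × Af n p => (x.1, (x.2, x.2)))
    (by fun_prop) fun x hx => ⟨hx.1, mem_univ _⟩

lemma Tn_contOn (hw : ∀ z ∈ S, ∀ j k, ContDiffAt ℝ ∞ (fun z => w z j k) z)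
    (hpos : ∀ z ∈ S, (w z).PosDef) :
    ContinuousOn (fun x : Cm n × (Fin n → Af n p) => (Tn (w x.1) x.2).re) (S ×ˢ univ) := by
  refine Complex.continuous_re.comp_continuousOn ?_
  unfold Tn
  refine continuousOn_finsetSum _ fun b _ => continuousOn_finsetSum _ fun b' _ => ?_
  refine ContinuousOn.mul ?_ ?_
  · exact (inv_contOn hw hpos b b').comp continuous_fst.continuousOn fun x hx => hx.1
  · exact (hn_contOn hw hpos).comp (f := fun x : Cm n × (Fin n → Af n p) => (x.1, (x.2 b, x.2 b')))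
      (by fun_prop) fun x hx => ⟨hx.1, mem_univ _⟩

/-- uniform bounds of the norm of forms -/
theorem hn_bounds (h1 : K1Stmt) (hS : IsCompact S)
    (hw : ∀ z ∈ S, ∀ j k, ContDiffAt ℝ ∞ (fun z => w z j k) z) (hpos : ∀ z ∈ S, (w z).PosDef)
    (p : ℕ) : ∃ c B : ℝ, 0 < c ∧ 0 < B ∧ ∀ z ∈ S, ∀ A : Af n p,
      c * ‖A‖ ^ 2 ≤ (hn (w z) A A).re ∧ (hn (w z) A A).re ≤ B * ‖A‖ ^ 2 := by
  obtain ⟨c, hc, h2⟩ := unif_lower (q := fun z (A : Af n p) => (hn (w z) A A).re) hS
    (hn_contOn' hw hpos) (fun z a v => hn_smul_self _ _ _)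
    fun z hz v hv => (Complex.lt_def.1 (h1.pos n p (w z) (hpos z hz) v hv)).1
  obtain ⟨B, hB, h3⟩ := unif_upper (q := fun z (A : Af n p) => (hn (w z) A A).re) hS
    (hn_contOn' hw hpos) (fun z a v => hn_smul_self _ _ _)
  exact ⟨c, B, hc, hB, fun z hz A => ⟨h2 z hz A, h3 z hz A⟩⟩

theorem Tn_bound (h1 : K1Stmt) (hS : IsCompact S)
    (hw : ∀ z ∈ S, ∀ j k, ContDiffAt ℝ ∞ (fun z => w z j k) z) (hpos : ∀ z ∈ S, (w z).PosDef)
    (p : ℕ) : ∃ c : ℝ, 0 < c ∧ ∀ z ∈ S, ∀ T : Fin n → Af n p, c * ‖T‖ ^ 2 ≤ (Tn (w z) T).re :=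
  unif_lower (q := fun z (T : Fin n → Af n p) => (Tn (w z) T).re) hS (Tn_contOn hw hpos)
    (fun _ _ _ => Tn_smul_self _ _ _) fun z hz _ hv => Tn_pos h1 (hpos z hz) hv

end bounds

end Vale.Agent.P284.H366.K
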