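import Vale.Agent.P284.H366.K.GLim

/-!
# Kähler version, K7: the curvature term
-/

open scoped ContDiff Topology ComplexConjugate ComplexOrder ENNReal
open MeasureTheory Set Filter Metric

noncomputable section

set_option linter.unusedSectionVars false

namespace Vale.Agent.P284.H366.K

open Vale.Agent.P272.K Vale.Agent.P284.H608.K Vale.Agent.P284.H366

variable {n p : ℕ}

/-- `dz_c ∧` as a linear map -/
def wdzL (c : Fin n) : Af n p →ₗ[ℂ] Af n (p + 1) where
  toFun η := wdz c η
  map_add' A B := by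
    unfold wdz
    rw [← ContinuousAlternatingMap.alternatizeUncurryFin_add]
    congr 1
    ext v ξ
    exact mul_add (v c) (A ξ) (B ξ)
  map_smul' a A := by
    unfold wdz
    rw [RingHom.id_apply, ← ContinuousAlternatingMap.alternatizeUncurryFin_smul]
    congr 1
    ext v ξ
    exact mul_left_comm (v c) a (A ξ)

lemma wdz_add (c : Fin n) (A B : Af n p) : wdz c (A + B) = wdz c A + wdz c B :=
  (wdzL c).map_add A B

lemma wdz_smul (c : Fin n) (a : ℂ) (A : Af n p) : wdz c (a • A) = a • wdz c A :=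
  (wdzL c).map_smul a A

lemma wdz_cont (c : Fin n) : Continuous fun A : Af n p => wdz c A :=
  (wdzL (n := n) (p := p) c).continuous_of_finiteDimensional

lemma Ad_smul (w β : Matrix (Fin n) (Fin n) ℂ) (a : ℂ) (A : Af n p) :
    (Ad w β (a • A)).re = ‖a‖ ^ 2 * (Ad w β A).re := by
  have e : Ad w β (a • A) = ((‖a‖ ^ 2 : ℝ) : ℂ) * Ad w β A := by
    unfold Ad
    rw [Finset.mul_sum]
    refine Finset.sum_congr rfl fun c _ => ?_
    rw [Finset.mul_sum]
    refine Finset.sum_congr rfl fun d _ => ?_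
    have : ((‖a‖ ^ 2 : ℝ) : ℂ) = a * conj a := by
      rw [Complex.mul_conj, Complex.normSq_eq_norm_sq]
    rw [wdz_smul, wdz_smul, hn_smul_left, hn_smul_right, this]
    ring
  rw [e, Complex.re_ofReal_mul]

lemma Ad_nonneg (h1 : K1Stmt) {w β : Matrix (Fin n) (Fin n) ℂ} (hw : w.PosDef)
    (hβ : β.PosSemidef) (A : Af n p) : 0 ≤ Ad w β A := by
  have h2 := h1.mono n p w 0 β hw (by rwa [sub_zero]) A
  have h3 : Ad w 0 A = 0 := by simp [Ad]
  rwa [h3] at h2

lemma Ad_le (h1 : K1Stmt) {w β : Matrix (Fin n) (Fin n) ℂ} (hw : w.PosDef)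
    (hβ : β.PosSemidef) (A B : Af n p) :
    (Ad w β (A + B)).re ≤ 2 * (Ad w β A).re + 2 * (Ad w β B).re := by
  have h2 : 0 ≤ (Ad w β (A + (-1 : ℂ) • B)).re :=
    (Complex.le_def.1 (Ad_nonneg h1 hw hβ (A + (-1 : ℂ) • B))).1
  have e : Ad w β (A + B) + Ad w β (A + (-1 : ℂ) • B) = 2 * Ad w β A + 2 * Ad w β B := by
    unfold Ad
    simp only [Finset.mul_sum, ← Finset.sum_add_distrib]
    refine Finset.sum_congr rfl fun c _ => Finset.sum_congr rfl fun d _ => ?_
    simp only [wdz_add, wdz_smul, hn_add_left, hn_add_right, hn_smul_left, hn_smul_right, map_neg,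
      map_one]
    ring
  have h3 := congrArg Complex.re e
  simp only [Complex.add_re, Complex.mul_re, Complex.re_ofNat, Complex.im_ofNat, zero_mul,
    sub_zero] at h3
  linarith

lemma dz_contAt {f : Cm n → ℂ} {z : Cm n} (hf : ContDiffAt ℝ 1 f z) (j : Fin n) :
    ContinuousAt (dz j f) z := by
  have h5 : ContinuousAt (fderiv ℝ f) z := (hf.fderiv_right (m := 0) (by simp)).continuousAt
  unfold dz
  exact ((h5.clm_apply continuousAt_const).sub
    (continuousAt_const.mul (h5.clm_apply continuousAt_const))).div_const 2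

lemma dzb_contDiffAt {f : Cm n → ℂ} {z : Cm n} (hf : ContDiffAt ℝ 2 f z) (j : Fin n) :
    ContDiffAt ℝ 1 (dzb j f) z := by
  have h5 : ContDiffAt ℝ 1 (fderiv ℝ f) z := hf.fderiv_right (m := 1) (by norm_num)
  unfold dzb
  exact ((h5.clm_apply contDiffAt_const).add
    (contDiffAt_const.mul (h5.clm_apply contDiffAt_const))).div_const 2

lemma cHess_contAt {φ : Cm n → ℝ} {z : Cm n} (hφ : ContDiffAt ℝ ∞ φ z) (c d : Fin n) :
    ContinuousAt (fun z => cHess φ z c d) z := by
  have h1 : ContDiffAt ℝ 2 (fun y => (φ y : ℂ)) z :=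
    Complex.ofRealCLM.contDiff.contDiffAt.comp z (hφ.of_le
      (WithTop.coe_le_coe.2 le_top : ((2 : ℕ∞) : WithTop ℕ∞) ≤ ((⊤ : ℕ∞) : WithTop ℕ∞)))
  exact dz_contAt (dzb_contDiffAt h1 d) c

lemma Ad_contOn {S : Set (Cm n)} {w : Cm n → Matrix (Fin n) (Fin n) ℂ}
    {β : Cm n → Matrix (Fin n) (Fin n) ℂ} (hw : ∀ z ∈ S, ∀ j k, ContDiffAt ℝ ∞ (fun z => w z j k) z)
    (hpos : ∀ z ∈ S, (w z).PosDef) (hβ : ∀ z ∈ S, ∀ c d, ContinuousAt (fun z => β z c d) z) :
    ContinuousOn (fun x : Cm n × Af n p => (Ad (w x.1) (β x.1) x.2).re) (S ×ˢ univ) := by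
  refine Complex.continuous_re.comp_continuousOn ?_
  unfold Ad
  refine continuousOn_finsetSum _ fun c _ => continuousOn_finsetSum _ fun d _ => ?_
  refine ContinuousOn.mul ?_ ?_
  · exact ContinuousOn.comp (t := S) (fun z hz => (hβ z hz c d).continuousWithinAt)
      continuous_fst.continuousOn fun x hx => hx.1
  · exact (hn_contOn hw hpos).comp
      (f := fun x : Cm n × Af n p => (x.1, (wdz c x.2, wdz d x.2)))
      ((continuous_fst.prodMk (((wdz_cont c).comp continuous_snd).prodMk
        ((wdz_cont d).comp continuous_snd))).continuousOn) fun x hx => ⟨hx.1, mem_univ _⟩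

variable {M : Type} [TopologicalSpace M] [T2Space M] [MeasurableSpace M] [BorelSpace M]
  {K : KA n M}

lemma dA_cont (h3 : K3Stmt n M K) {η : K.Fm p} (hf : K.IsForm η) (hη : K.Smooth η) (i : K.I) :
    ContinuousOn (fun x => K.dA η x) (K.e i).source := by
  have h1 : ContinuousOn (fun x => Real.exp (-K.φ i (K.e i x)) *
      (Ad (K.w i (K.e i x)) (cHess (K.φ i) (K.e i x)) (η i (K.e i x))).re) (K.e i).source := by
    refine ContinuousOn.mul ?_ ?_
    · refine Real.continuous_exp.comp_continuousOn (ContinuousOn.neg fun x hx => ?_)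
      exact ((K.φsm i _ ((K.e i).map_source hx)).continuousAt.comp
        ((e_cont i).continuousAt ((K.e i).open_source.mem_nhds hx))).continuousWithinAt
    · exact (Ad_contOn (p := p) (S := (K.e i).target) (w := K.w i) (β := cHess (K.φ i)) (K.wsm i)
        (K.wpos i) (fun z hz c d => cHess_contAt (K.φsm i z hz) c d)).comp
        (f := fun x => (K.e i x, η i (K.e i x)))
        ((e_cont i).prodMk (form_cont hη i)) fun x hx => ⟨(K.e i).map_source hx, mem_univ _⟩
  exact h1.congr fun x hx => h3.dA_eq p η hf i x hx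

/-- the curvature of the limit -/
theorem Ad_lim (h1 : K1Stmt) (h3 : K3Stmt n M K)
    (hφ : ∀ i, ∀ z ∈ (K.e i).target, (cHess (K.φ i) z).PosSemidef) {x : ℕ → K.Fm p}
    (hx : ∀ k, K.Test (x k)) (hA : Tendsto (fun k => ∫ y, K.dA (x k) y ∂K.μ) atTop (𝓝 0))
    {U : Ultrafilter ℕ} (hU : (U : Filter ℕ) ≤ atTop) {s : K.Fm p} (hs : K.Hol s) (i : K.I)
    {z₀ : Cm n} (r : ℝ) (hr0 : 0 < r) (hr : closedBall z₀ r ⊆ (K.e i).target)
    (hlim : Tendsto (fun k => ∫⁻ y in ball z₀ r, ENNReal.ofReal (‖x k i y - s i y‖ ^ 2)) U (𝓝 0)) :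
    Ad (K.w i z₀) (cHess (K.φ i) z₀) (s i z₀) = 0 := by
  have hsub : ball z₀ r ⊆ (K.e i).target := ball_subset_closedBall.trans hr
  set q : Cm n → Af n p → ℝ := fun z A => (Ad (K.w i z) (cHess (K.φ i) z) A).re with hq
  have hq0 : ∀ z ∈ (K.e i).target, ∀ A, 0 ≤ q z A := fun z hz A =>
    (Complex.le_def.1 (Ad_nonneg h1 (K.wpos i z hz) (hφ i z hz) A)).1
  have hqc : ContinuousOn (fun x : Cm n × Af n p => q x.1 x.2) ((K.e i).target ×ˢ univ) :=
    Ad_contOn (K.wsm i) (K.wpos i) fun z hz c d => cHess_contAt (K.φsm i z hz) c d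
  obtain ⟨B, hB0, hB⟩ := unif_upper (isCompact_closedBall z₀ r) (hqc.mono (prod_mono_left hr))
    (fun z a v => Ad_smul _ _ a v)
  obtain ⟨c, hc0, hlow⟩ := lowerG K i hr
  have hqs : ContinuousOn (fun z => q z (s i z)) (ball z₀ r) :=
    hqc.comp (f := fun z => (z, s i z)) (continuousOn_id.prodMk fun z hz =>
      (hs i z (hsub hz)).continuousAt.continuousWithinAt) fun z hz => ⟨hsub hz, mem_univ _⟩
  have hqx : ∀ k, ContinuousOn (fun z => q z (x k i z)) (ball z₀ r) := fun k =>
    hqc.comp (f := fun z => (z, x k i z)) (continuousOn_id.prodMk fun z hz =>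
      ((hx k).smooth i z (hsub hz)).continuousAt.continuousWithinAt)
      fun z hz => ⟨hsub hz, mem_univ _⟩
  -- the integral vanishes
  have hint : ∫⁻ z in ball z₀ r, ENNReal.ofReal (q z (s i z)) = 0 := by
    have hle : ∀ k, ∫⁻ z in ball z₀ r, ENNReal.ofReal (q z (s i z)) ≤
        ENNReal.ofReal (2 * c) * ENNReal.ofReal (∫ y, K.dA (x k) y ∂K.μ) +
          ENNReal.ofReal (2 * B) * ∫⁻ y in ball z₀ r, ENNReal.ofReal (‖x k i y - s i y‖ ^ 2) := by
      intro k
      have m1 : AEMeasurable (fun z => ENNReal.ofReal (2 * q z (x k i z)))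
          (volume.restrict (ball z₀ r)) :=
        ((continuousOn_const.mul (hqx k)).aemeasurable measurableSet_ball).ennreal_ofReal
      calc ∫⁻ z in ball z₀ r, ENNReal.ofReal (q z (s i z))
          ≤ ∫⁻ z in ball z₀ r, (ENNReal.ofReal (2 * q z (x k i z)) +
              ENNReal.ofReal (2 * B) * ENNReal.ofReal (‖x k i z - s i z‖ ^ 2)) := by
            refine setLIntegral_mono' measurableSet_ball fun z hz => ?_
            rw [← ENNReal.ofReal_mul (by positivity),
              ← ENNReal.ofReal_add (mul_nonneg (by norm_num) (hq0 z (hsub hz) _))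
                (by positivity)]
            refine ENNReal.ofReal_le_ofReal ?_
            have h4 := Ad_le h1 (K.wpos i z (hsub hz)) (hφ i z (hsub hz)) (x k i z)
              (s i z - x k i z)
            rw [add_sub_cancel] at h4
            have h5 := hB z (ball_subset_closedBall hz) (s i z - x k i z)
            rw [norm_sub_rev] at h5
            have h6 : q z (s i z) ≤ 2 * q z (x k i z) + 2 * q z (s i z - x k i z) := h4
            linarith
        _ = (∫⁻ z in ball z₀ r, ENNReal.ofReal (2 * q z (x k i z))) +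
              ENNReal.ofReal (2 * B) * ∫⁻ y in ball z₀ r, ENNReal.ofReal (‖x k i y - s i y‖ ^ 2) := by
            rw [lintegral_add_left' m1, lintegral_const_mul' _ _ ENNReal.ofReal_ne_top]
        _ ≤ _ := by
            gcongr
            have h7 := hlow (fun y => K.dA (x k) y) (fun z => q z (x k i z))
              (dA_cont h3 (hx k).form (hx k).smooth i) (fun z hz => by
                rw [h3.dA_eq p (x k) (hx k).form i _ ((K.e i).map_target (hsub hz)),
                  (K.e i).right_inv (hsub hz)]) (fun z hz => hq0 z (hsub hz) _)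
            rw [← ofReal_integral_eq_lintegral_ofReal (h3.intT p (x k) (hx k)).2
              (Eventually.of_forall fun y => ?_)] at h7
            · calc ∫⁻ z in ball z₀ r, ENNReal.ofReal (2 * q z (x k i z))
                  = ENNReal.ofReal 2 * ∫⁻ z in ball z₀ r, ENNReal.ofReal (q z (x k i z)) := by
                    rw [← lintegral_const_mul' _ _ ENNReal.ofReal_ne_top]
                    refine lintegral_congr fun z => ?_
                    rw [ENNReal.ofReal_mul (by norm_num)]
                _ ≤ ENNReal.ofReal 2 * (ENNReal.ofReal c *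
                      ENNReal.ofReal (∫ y, K.dA (x k) y ∂K.μ)) := by gcongr
                _ = _ := by rw [← mul_assoc, ← ENNReal.ofReal_mul (by norm_num)]
            · exact mul_nonneg (Real.exp_pos _).le (Complex.le_def.1 (Ad_nonneg h1
                (wpos_ix (K := K) y) (hφ _ _ ((K.e _).map_source (K.cover y).choose_spec)) _)).1
    have ht : Tendsto (fun k => ENNReal.ofReal (2 * c) * ENNReal.ofReal (∫ y, K.dA (x k) y ∂K.μ) +
        ENNReal.ofReal (2 * B) * ∫⁻ y in ball z₀ r, ENNReal.ofReal (‖x k i y - s i y‖ ^ 2)) U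
        (𝓝 0) := by
      have t1 : Tendsto (fun k => ENNReal.ofReal (∫ y, K.dA (x k) y ∂K.μ)) U (𝓝 0) := by
        have := ENNReal.tendsto_ofReal (hA.mono_left hU)
        rwa [ENNReal.ofReal_zero] at this
      have t2 := ENNReal.Tendsto.const_mul (a := ENNReal.ofReal (2 * c)) t1
        (Or.inr ENNReal.ofReal_ne_top)
      have t3 := ENNReal.Tendsto.const_mul (a := ENNReal.ofReal (2 * B)) hlim
        (Or.inr ENNReal.ofReal_ne_top)
      have t4 := t2.add t3
      rwa [mul_zero, mul_zero, add_zero] at t4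
    exact le_antisymm (ge_of_tendsto' ht hle) bot_le
  have m2 : AEMeasurable (fun z => ENNReal.ofReal (q z (s i z))) (volume.restrict (ball z₀ r)) :=
    (hqs.aemeasurable measurableSet_ball).ennreal_ofReal
  rw [lintegral_eq_zero_iff' m2] at hint
  have heq : EqOn (fun z => q z (s i z)) (fun _ => 0) (ball z₀ r) := by
    refine Measure.eqOn_open_of_ae_eq (μ := volume) ?_ isOpen_ball hqs continuousOn_const
    filter_upwards [hint, ae_restrict_mem measurableSet_ball] with z hz hzb
    exact le_antisymm (ENNReal.ofReal_eq_zero.1 hz) (hq0 z (hsub hzb) _)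
  have h8 : q z₀ (s i z₀) = 0 := heq (mem_ball_self hr0)
  have h9 := Ad_nonneg h1 (K.wpos i z₀ (hr (mem_closedBall_self hr0.le)))
    (hφ i z₀ (hr (mem_closedBall_self hr0.le))) (s i z₀)
  exact Complex.ext h8 (Complex.le_def.1 h9).2.symm

end Vale.Agent.P284.H366.K
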