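import Vale.Agent.P284.H553.K8.T
import Vale.Agent.P284.H366.K.Alg
import Vale.Agent.P284.H205.K.Den
import Vale.Agent.P284.H451.K1b
import Vale.Agent.P284.H752.K1

/-!
# Kähler version, K8 (B): the pointwise bound near any point
-/

open scoped Manifold ContDiff Topology ComplexConjugate ComplexOrder ENNReal InnerProductSpace
open Filter Set Metric MeasureTheory

noncomputable section

namespace Vale.Agent.P284.H366.K

open Vale.Agent.P272.K Vale.Agent.P284.H573 Vale.Agent.P284.H395 Vale.Agent.P284.H998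
  Vale.Agent.P284.H998.U Vale.Agent.P284.H553.LB Vale.Agent.P284.H608.K Vale.Agent.P284.H837
  Vale.Agent.P284.H894 Vale.Agent.P284.H894.G Vale.Agent.P284.H47.K Vale.Agent.P284.H553.K8

/-- **K8 (B)** -/
theorem bStmt : Vale.Agent.P284.H553.K8.BStmt := by
  intro n R m X _ _ _ _ _ _ _ w h ρ E _ p H _ _ _ v hy x₁ e he ξ
  have hk1 : K1Stmt := Vale.Agent.P284.H752.k1Stmt
  have hk1b : K1bStmt := Vale.Agent.P284.H451.K1.k1bStmt
  obtain ⟨r, hr0, hr⟩ := Metric.nhds_basis_closedBall.mem_iff.1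
    (e.open_target.mem_nhds (e.map_source he.2))
  have hAt : ∀ z ∈ closedBall (e x₁) r, At e (e.symm z) := fun z hz =>
    ⟨he.1, e.map_target (hr hz)⟩
  have hinv : ∀ z ∈ closedBall (e x₁) r, e (e.symm z) = z := fun z hz => e.right_inv (hr hz)
  have hw : ∀ z ∈ closedBall (e x₁) r, ∀ j k, ContDiffAt ℝ ∞ (fun z => w e z j k) z := by
    intro z hz j k
    have := hy.kah.smooth e (e.symm z) (hAt z hz) j k
    rwa [hinv z hz] at this
  have hpos : ∀ z ∈ closedBall (e x₁) r, (w e z).PosDef := by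
    intro z hz
    have := hy.kah.posDef e (e.symm z) (hAt z hz)
    rwa [hinv z hz] at this
  obtain ⟨c, B, hc, hB, hb⟩ := hn_bounds hk1 (isCompact_closedBall (e x₁) r) hw hpos R
  have hdet : ∃ d : ℝ, 0 < d ∧ ∀ z ∈ closedBall (e x₁) r, d ≤ (w e z).det.re := by
    have hcd : ContinuousOn (fun z => (w e z).det.re) (closedBall (e x₁) r) := by
      refine Complex.continuous_re.comp_continuousOn ?_
      simp only [Matrix.det_apply']
      refine continuousOn_finsetSum _ fun σ _ => continuousOn_const.mul ?_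
      exact continuousOn_finsetProd _ fun j _ z hz => (hw z hz _ _).continuousAt.continuousWithinAt
    obtain ⟨z₁, hz₁, hmin⟩ := (isCompact_closedBall (e x₁) r).exists_isMinOn
      ⟨e x₁, mem_closedBall_self hr0.le⟩ hcd
    exact ⟨_, (Complex.lt_def.1 (hpos z₁ hz₁).det_pos).1, fun z hz => hmin hz⟩
  obtain ⟨d, hd, hdb⟩ := hdet
  set P := ∏ i, ‖ξ i‖ with hP
  have hP0 : 0 ≤ P := Finset.prod_nonneg fun i _ => norm_nonneg _
  refine ⟨P ^ 2 / (c * d), by positivity, ?_⟩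
  have hev : ∀ᶠ x in 𝓝 x₁, x ∈ e.source ∧ e x ∈ closedBall (e x₁) r :=
    (e.open_source.eventually_mem he.2).and
      ((e.continuousAt he.2).eventually (closedBall_mem_nhds _ hr0))
  filter_upwards [hev] with x hx
  have hex : At e x := ⟨he.1, hx.1⟩
  refine ⟨hex, fun j K L s hs i hi hxZ => ?_⟩
  set A : Af n R := (s i (L.e i x)).compContinuousLinearMap (tau e (L.e i) x) with hA
  have hAξ : s i (L.e i x) (fun k => tau e (L.e i) x (ξ k)) = A ξ := rfl
  have h1 : ‖A ξ‖ ^ 2 ≤ ‖A‖ ^ 2 * P ^ 2 := by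
    rw [← mul_pow]
    exact pow_le_pow_left₀ (norm_nonneg _) (A.le_opNorm ξ) 2
  have h2 := (hb (e x) hx.2 A).1
  have h3 := hdb (e x) hx.2
  have hwp := hpos (e x) hx.2
  -- `det w |A|²_w ≤ det h |A|²_h`
  have h4 := hk1b.vmono n R (w e (e x)) (h e (e x)) hwp (hy.ge e x hex hxZ) A
  have hhp := hy.koff.posDef e x hex hxZ
  have him : ∀ {u : Matrix (Fin n) (Fin n) ℂ}, u.PosDef →
      (u.det * hn u A A).re = u.det.re * (hn u A A).re := by
    intro u hu
    have h5 : u.det.im = 0 := (Complex.lt_def.1 hu.det_pos).2.symm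
    rw [Complex.mul_re, h5, zero_mul, sub_zero]
  have h6 : (w e (e x)).det.re * (hn (w e (e x)) A A).re ≤
      (h e (e x)).det.re * (hn (h e (e x)) A A).re := by
    rw [← him hwp, ← him hhp]
    exact (Complex.le_def.1 h4).1
  -- the density in the chart
  have h7 : hn (h e (e x)) A A = hn (h (L.e i) (L.e i x)) (s i (L.e i x)) (s i (L.e i x)) :=
    hn_chart hk1 hy.koff hex (L.atU hi) hxZ _ _
  have h8 : (K.dn s s ⟨x, hxZ⟩).re = Real.exp (-K.φ i (L.e i x)) * (hn (h e (e x)) A A).re := by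
    rw [Vale.Agent.P284.H205.K.dn_eq hk1 hs hs (L.mem_src hi), Complex.re_ofReal_mul, L.app, h7,
      L.w i _ (L.mem_tgt hi)]
  rw [hAξ, h8]
  have h9 : 0 ≤ (hn (w e (e x)) A A).re := hn_self_nonneg hk1 hwp A
  have h10 : c * d * ‖A‖ ^ 2 ≤ (h e (e x)).det.re * (hn (h e (e x)) A A).re := by
    calc c * d * ‖A‖ ^ 2 = d * (c * ‖A‖ ^ 2) := by ring
      _ ≤ (w e (e x)).det.re * (hn (w e (e x)) A A).re :=
          mul_le_mul h3 h2 (by positivity) (hd.le.trans h3)
      _ ≤ _ := h6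
  have h11 : ‖A ξ‖ ^ 2 ≤ P ^ 2 / (c * d) * ((h e (e x)).det.re * (hn (h e (e x)) A A).re) := by
    calc ‖A ξ‖ ^ 2 ≤ ‖A‖ ^ 2 * P ^ 2 := h1
      _ = P ^ 2 / (c * d) * (c * d * ‖A‖ ^ 2) := by field_simp
      _ ≤ _ := mul_le_mul_of_nonneg_left h10 (by positivity)
  calc ‖A ξ‖ ^ 2 * Real.exp (-K.φ i (L.e i x))
      ≤ P ^ 2 / (c * d) * ((h e (e x)).det.re * (hn (h e (e x)) A A).re) *
          Real.exp (-K.φ i (L.e i x)) := mul_le_mul_of_nonneg_right h11 (Real.exp_pos _).le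
    _ = _ := by ring

end Vale.Agent.P284.H366.K
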