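import Vale.Agent.P284.H366.K.Alg

/-!
# Kähler version: local estimates of the densities
-/

open scoped ContDiff Topology ComplexConjugate ComplexOrder ENNReal
open Filter Set MeasureTheory Metric

noncomputable section

set_option linter.unusedSectionVars false

namespace Vale.Agent.P284.H366.K

open Vale.Agent.P272.K Vale.Agent.P284.H608.K Vale.Agent.P284.H366

variable {n p : ℕ} {M : Type} [TopologicalSpace M] [T2Space M] [MeasurableSpace M] [BorelSpace M]
  {K : KA n M}

/-- a manifold with cut-off functions is σ-compact -/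
theorem cut_sigma (h : K.Cut) : SigmaCompactSpace M := by
  choose C hC hχ using h.supp
  refine ⟨⟨C, hC, ?_⟩⟩
  rw [eq_univ_iff_forall]
  intro x
  obtain ⟨ν, hν⟩ := (h.lim x).exists
  refine mem_iUnion.2 ⟨ν, ?_⟩
  by_contra hx
  have h1 := hν.self_of_nhds
  rw [hχ ν x hx] at h1
  exact zero_ne_one h1

variable (K)

lemma img_open (i : K.I) {B : Set (Cm n)} (hB : IsOpen B) (hBt : B ⊆ (K.e i).target) :
    IsOpen ((K.e i).symm '' B) :=
  (K.e i).symm.isOpen_image_of_subset_source hB hBt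

lemma img_sub (i : K.I) {B : Set (Cm n)} (hBt : B ⊆ (K.e i).target) :
    (K.e i).symm '' B ⊆ (K.e i).source := by
  rintro _ ⟨z, hz, rfl⟩
  exact (K.e i).map_target (hBt hz)

/-- integrals over a piece -/
lemma piece (i : K.I) {B : Set (Cm n)} (hB : IsOpen B) (hBt : B ⊆ (K.e i).target)
    {g : M → ℝ≥0∞} (hg : ContinuousOn g (K.e i).source) :
    ∫⁻ x in (K.e i).symm '' B, g x ∂K.μ =
      ∫⁻ z in B, g ((K.e i).symm z) * ENNReal.ofReal ((K.w i z).det.re) := by
  classical
  set O := (K.e i).symm '' B with hO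
  have hOo : IsOpen O := img_open K i hB hBt
  have hOs : O ⊆ (K.e i).source := img_sub K i hBt
  have hf : Measurable (O.indicator g) := by
    have h1 : Measurable (O.piecewise g 0) :=
      ContinuousOn.measurable_piecewise (hg.mono hOs) continuousOn_const hOo.measurableSet
    rwa [piecewise_eq_indicator] at h1
  have h2 := K.hμ i (O.indicator g) hf fun x hx => by
    rw [indicator_of_notMem fun h => hx (hOs h)]
  rw [lintegral_indicator hOo.measurableSet] at h2
  rw [h2, ← lintegral_indicator hB.measurableSet, ← lintegral_indicator (K.e i).open_target.measurableSet]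
  refine lintegral_congr fun z => ?_
  by_cases hz : z ∈ (K.e i).target
  · rw [indicator_of_mem hz]
    by_cases hzB : z ∈ B
    · rw [indicator_of_mem hzB, indicator_of_mem (mem_image_of_mem _ hzB)]
    · rw [indicator_of_notMem hzB, indicator_of_notMem, zero_mul]
      rintro ⟨z', hz', he⟩
      have := congrArg (K.e i) he
      rw [(K.e i).right_inv (hBt hz'), (K.e i).right_inv hz] at this
      exact hzB (this ▸ hz')
  · rw [indicator_of_notMem hz, indicator_of_notMem fun h => hz (hBt h)]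

/-- the weight `e^{-φ} det w` on a compact ball -/
lemma wt_bounds (i : K.I) {z₀ : Cm n} {R : ℝ} (hR : closedBall z₀ R ⊆ (K.e i).target) :
    ∃ c C : ℝ, 0 < c ∧ 0 < C ∧ ∀ z ∈ ball z₀ R,
      1 ≤ c * (Real.exp (-K.φ i z) * (K.w i z).det.re) ∧
      Real.exp (-K.φ i z) * (K.w i z).det.re ≤ C := by
  have hc : ContinuousOn (fun z => Real.exp (-K.φ i z) * (K.w i z).det.re) (closedBall z₀ R) := by
    refine ContinuousOn.mul ?_ ?_
    · exact Real.continuous_exp.comp_continuousOn (fun z hz =>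
        (K.φsm i z (hR hz)).continuousAt.neg.continuousWithinAt)
    · refine Complex.continuous_re.comp_continuousOn ?_
      simp only [Matrix.det_apply']
      refine continuousOn_finsetSum _ fun σ _ => continuousOn_const.mul ?_
      exact continuousOn_finsetProd _ fun j _ z hz =>
        (K.wsm i z (hR hz) _ _).continuousAt.continuousWithinAt
  have hpos : ∀ z ∈ closedBall z₀ R, 0 < Real.exp (-K.φ i z) * (K.w i z).det.re := fun z hz =>
    mul_pos (Real.exp_pos _) (Complex.lt_def.1 (K.wpos i z (hR hz)).det_pos).1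
  rcases (closedBall z₀ R).eq_empty_or_nonempty with h | h
  · refine ⟨1, 1, one_pos, one_pos, fun z hz => ?_⟩
    have := ball_subset_closedBall hz
    rw [h] at this
    exact absurd this (notMem_empty _)
  · obtain ⟨z₁, hz₁, hmin⟩ := (isCompact_closedBall z₀ R).exists_isMinOn h hc
    obtain ⟨z₂, hz₂, hmax⟩ := (isCompact_closedBall z₀ R).exists_isMaxOn h hc
    have h1 := hpos z₁ hz₁
    refine ⟨(Real.exp (-K.φ i z₁) * (K.w i z₁).det.re)⁻¹,
      Real.exp (-K.φ i z₂) * (K.w i z₂).det.re, inv_pos.2 h1, hpos z₂ hz₂, fun z hz => ⟨?_, ?_⟩⟩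
    · rw [← inv_mul_cancel₀ h1.ne']
      exact mul_le_mul_of_nonneg_left (hmin (ball_subset_closedBall hz)) (inv_pos.2 h1).le
    · exact hmax (ball_subset_closedBall hz)

/-- lower bound of a global integral by a local one -/
lemma lowerG (i : K.I) {z₀ : Cm n} {R : ℝ} (hR : closedBall z₀ R ⊆ (K.e i).target) :
    ∃ c : ℝ, 0 < c ∧ ∀ (G : M → ℝ) (g : Cm n → ℝ), ContinuousOn G (K.e i).source →
      (∀ z ∈ ball z₀ R, G ((K.e i).symm z) = Real.exp (-K.φ i z) * g z) →
      (∀ z ∈ ball z₀ R, 0 ≤ g z) →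
      ∫⁻ z in ball z₀ R, ENNReal.ofReal (g z) ≤
        ENNReal.ofReal c * ∫⁻ x, ENNReal.ofReal (G x) ∂K.μ := by
  obtain ⟨c, C, hc, hC, hb⟩ := wt_bounds K i hR
  refine ⟨c, hc, fun G g hG hGg hg => ?_⟩
  have hsub : ball z₀ R ⊆ (K.e i).target := ball_subset_closedBall.trans hR
  have h1 : ContinuousOn (fun x => ENNReal.ofReal (G x)) (K.e i).source :=
    ENNReal.continuous_ofReal.comp_continuousOn hG
  have h2 := piece K i isOpen_ball hsub h1
  calc ∫⁻ z in ball z₀ R, ENNReal.ofReal (g z)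
      ≤ ∫⁻ z in ball z₀ R, ENNReal.ofReal c * (ENNReal.ofReal (G ((K.e i).symm z)) *
          ENNReal.ofReal ((K.w i z).det.re)) := by
        refine setLIntegral_mono' measurableSet_ball fun z hz => ?_
        have hdet : 0 ≤ (K.w i z).det.re := (Complex.lt_def.1 (K.wpos i z (hsub hz)).det_pos).1.le
        have hG0 : 0 ≤ G ((K.e i).symm z) := by
          rw [hGg z hz]
          exact mul_nonneg (Real.exp_pos _).le (hg z hz)
        rw [← ENNReal.ofReal_mul hG0, ← ENNReal.ofReal_mul hc.le]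
        refine ENNReal.ofReal_le_ofReal ?_
        rw [hGg z hz]
        have := mul_le_mul_of_nonneg_right (hb z hz).1 (hg z hz)
        rw [one_mul] at this
        refine this.trans (le_of_eq (by ring))
    _ = ENNReal.ofReal c * ∫⁻ x in (K.e i).symm '' ball z₀ R, ENNReal.ofReal (G x) ∂K.μ := by
        rw [lintegral_const_mul' _ _ ENNReal.ofReal_ne_top, h2]
    _ ≤ _ := by gcongr; exact Measure.restrict_le_self

/-- upper bound of the integral over a piece -/
lemma upperG (i : K.I) {z₀ : Cm n} {R : ℝ} (hR : closedBall z₀ R ⊆ (K.e i).target) :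
    ∃ C : ℝ, 0 < C ∧ ∀ (G : M → ℝ) (g : Cm n → ℝ), ContinuousOn G (K.e i).source →
      (∀ z ∈ ball z₀ R, G ((K.e i).symm z) = Real.exp (-K.φ i z) * g z) →
      (∀ z ∈ ball z₀ R, 0 ≤ g z) →
      ∫⁻ x in (K.e i).symm '' ball z₀ R, ENNReal.ofReal (G x) ∂K.μ ≤
        ENNReal.ofReal C * ∫⁻ z in ball z₀ R, ENNReal.ofReal (g z) := by
  obtain ⟨c, C, hc, hC, hb⟩ := wt_bounds K i hR
  refine ⟨C, hC, fun G g hG hGg hg => ?_⟩
  have hsub : ball z₀ R ⊆ (K.e i).target := ball_subset_closedBall.trans hR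
  have h1 : ContinuousOn (fun x => ENNReal.ofReal (G x)) (K.e i).source :=
    ENNReal.continuous_ofReal.comp_continuousOn hG
  rw [piece K i isOpen_ball hsub h1, ← lintegral_const_mul' _ _ ENNReal.ofReal_ne_top]
  refine setLIntegral_mono' measurableSet_ball fun z hz => ?_
  have hG0 : 0 ≤ G ((K.e i).symm z) := by
    rw [hGg z hz]
    exact mul_nonneg (Real.exp_pos _).le (hg z hz)
  rw [← ENNReal.ofReal_mul hG0, ← ENNReal.ofReal_mul hC.le]
  refine ENNReal.ofReal_le_ofReal ?_
  rw [hGg z hz]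
  have := mul_le_mul_of_nonneg_right (hb z hz).2 (hg z hz)
  refine le_trans (le_of_eq (by ring)) this

/-! ### the densities of forms -/

variable {K}

lemma e_cont (i : K.I) : ContinuousOn (K.e i) (K.e i).source := (K.e i).continuousOn

lemma form_cont {η : K.Fm p} (hη : K.Smooth η) (i : K.I) :
    ContinuousOn (fun x => η i (K.e i x)) (K.e i).source := fun _ hx =>
  ((hη i _ ((K.e i).map_source hx)).continuousAt.comp
    ((e_cont i).continuousAt ((K.e i).open_source.mem_nhds hx))).continuousWithinAt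

lemma dn_cont (h3 : K3Stmt n M K) {η : K.Fm p} (hf : K.IsForm η) (hη : K.Smooth η) (i : K.I) :
    ContinuousOn (fun x => (K.dn η η x).re) (K.e i).source := by
  have h1 : ContinuousOn (fun x => Real.exp (-K.φ i (K.e i x)) *
      (hn (K.w i (K.e i x)) (η i (K.e i x)) (η i (K.e i x))).re) (K.e i).source := by
    refine ContinuousOn.mul ?_ ?_
    · refine Real.continuous_exp.comp_continuousOn (ContinuousOn.neg fun x hx => ?_)
      exact ((K.φsm i _ ((K.e i).map_source hx)).continuousAt.comp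
        ((e_cont i).continuousAt ((K.e i).open_source.mem_nhds hx))).continuousWithinAt
    · exact (hn_contOn' (p := p) (S := (K.e i).target) (w := K.w i) (K.wsm i) (K.wpos i)).comp
        (f := fun x => (K.e i x, η i (K.e i x)))
        ((e_cont i).prodMk (form_cont hη i)) fun x hx => ⟨(K.e i).map_source hx, mem_univ _⟩
  refine h1.congr fun x hx => ?_
  show (K.dn η η x).re = _
  rw [h3.dn_eq p η η hf hf i x hx, Complex.re_ofReal_mul]

lemma dn_symm (h3 : K3Stmt n M K) {η : K.Fm p} (hf : K.IsForm η) (i : K.I) {z : Cm n}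
    (hz : z ∈ (K.e i).target) : (K.dn η η ((K.e i).symm z)).re =
      Real.exp (-K.φ i z) * (hn (K.w i z) (η i z) (η i z)).re := by
  rw [h3.dn_eq p η η hf hf i _ ((K.e i).map_target hz), (K.e i).right_inv hz, Complex.re_ofReal_mul]

lemma dn_nonneg (h1 : K1Stmt) (η : K.Fm p) (x : M) : 0 ≤ (K.dn η η x).re := by
  have hx : x ∈ (K.e (K.ix x)).source := (K.cover x).choose_spec
  unfold KA.dn
  rw [Complex.re_ofReal_mul]
  exact mul_nonneg (Real.exp_pos _).le (hn_self_nonneg h1 (K.wpos _ _ ((K.e _).map_source hx)) _)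

/-- the local `L²` norms of forms are bounded by the global one -/
theorem lower_dn (h1 : K1Stmt) (h3 : K3Stmt n M K) (i : K.I) {z₀ : Cm n} {R : ℝ}
    (hR : closedBall z₀ R ⊆ (K.e i).target) (p : ℕ) :
    ∃ c : ℝ, 0 < c ∧ ∀ η : K.Fm p, K.IsForm η → K.Smooth η →
      ∫⁻ z in ball z₀ R, ENNReal.ofReal (‖η i z‖ ^ 2) ≤ ENNReal.ofReal c * K.nl η := by
  obtain ⟨c, hc, h⟩ := lowerG K i hR
  obtain ⟨c', B, hc', hB, hb⟩ := hn_bounds h1 (isCompact_closedBall z₀ R)
    (fun z hz => K.wsm i z (hR hz)) (fun z hz => K.wpos i z (hR hz)) p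
  refine ⟨c'⁻¹ * c, by positivity, fun η hf hη => ?_⟩
  have hsub : ball z₀ R ⊆ (K.e i).target := ball_subset_closedBall.trans hR
  have h2 := h (fun x => (K.dn η η x).re) (fun z => (hn (K.w i z) (η i z) (η i z)).re)
    (dn_cont h3 hf hη i) (fun z hz => dn_symm h3 hf i (hsub hz))
    (fun z hz => hn_self_nonneg h1 (K.wpos i z (hsub hz)) _)
  calc ∫⁻ z in ball z₀ R, ENNReal.ofReal (‖η i z‖ ^ 2)
      ≤ ∫⁻ z in ball z₀ R, ENNReal.ofReal c'⁻¹ *
          ENNReal.ofReal ((hn (K.w i z) (η i z) (η i z)).re) := by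
        refine setLIntegral_mono' measurableSet_ball fun z hz => ?_
        rw [← ENNReal.ofReal_mul (by positivity)]
        refine ENNReal.ofReal_le_ofReal ?_
        have h4 := (hb z (ball_subset_closedBall hz) (η i z)).1
        have h5 := mul_le_mul_of_nonneg_left h4 (inv_pos.2 hc').le
        rwa [← mul_assoc, inv_mul_cancel₀ hc'.ne', one_mul] at h5
    _ = ENNReal.ofReal c'⁻¹ * ∫⁻ z in ball z₀ R,
          ENNReal.ofReal ((hn (K.w i z) (η i z) (η i z)).re) :=
        lintegral_const_mul' _ _ ENNReal.ofReal_ne_top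
    _ ≤ ENNReal.ofReal c'⁻¹ * (ENNReal.ofReal c * K.nl η) := by gcongr; exact h2
    _ = _ := by rw [← mul_assoc, ← ENNReal.ofReal_mul (by positivity)]

theorem upper_dn (h1 : K1Stmt) (h3 : K3Stmt n M K) (i : K.I) {z₀ : Cm n} {R : ℝ}
    (hR : closedBall z₀ R ⊆ (K.e i).target) (p : ℕ) :
    ∃ C : ℝ, 0 < C ∧ ∀ η : K.Fm p, K.IsForm η → K.Smooth η →
      ∫⁻ x in (K.e i).symm '' ball z₀ R, ENNReal.ofReal (K.dn η η x).re ∂K.μ ≤
        ENNReal.ofReal C * ∫⁻ z in ball z₀ R, ENNReal.ofReal (‖η i z‖ ^ 2) := by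
  obtain ⟨c, hc, h⟩ := upperG K i hR
  obtain ⟨c', B, hc', hB, hb⟩ := hn_bounds h1 (isCompact_closedBall z₀ R)
    (fun z hz => K.wsm i z (hR hz)) (fun z hz => K.wpos i z (hR hz)) p
  refine ⟨c * B, by positivity, fun η hf hη => ?_⟩
  have hsub : ball z₀ R ⊆ (K.e i).target := ball_subset_closedBall.trans hR
  have h2 := h (fun x => (K.dn η η x).re) (fun z => (hn (K.w i z) (η i z) (η i z)).re)
    (dn_cont h3 hf hη i) (fun z hz => dn_symm h3 hf i (hsub hz))
    (fun z hz => hn_self_nonneg h1 (K.wpos i z (hsub hz)) _)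
  refine h2.trans ?_
  have h4 : ∫⁻ z in ball z₀ R, ENNReal.ofReal (hn (K.w i z) (η i z) (η i z)).re ≤
      ENNReal.ofReal B * ∫⁻ z in ball z₀ R, ENNReal.ofReal (‖η i z‖ ^ 2) := by
    rw [← lintegral_const_mul' _ _ ENNReal.ofReal_ne_top]
    refine setLIntegral_mono' measurableSet_ball fun z hz => ?_
    rw [← ENNReal.ofReal_mul hB.le]
    exact ENNReal.ofReal_le_ofReal (hb z (ball_subset_closedBall hz) (η i z)).2
  rw [ENNReal.ofReal_mul hc.le, mul_assoc]
  gcongr

lemma dT_cont (h3 : K3Stmt n M K) {η : K.Fm p} (hf : K.IsForm η) (hη : K.Smooth η) (i : K.I) :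
    ContinuousOn (fun x => K.dT η x) (K.e i).source := by
  have hdb : ContinuousOn (fun x => fun b => dbV b (η i) (K.e i x)) (K.e i).source := by
    refine continuousOn_pi.2 fun b => ?_
    intro x hx
    have h4 := K.e i |>.map_source hx
    have h5 : ContinuousAt (fderiv ℝ (η i)) (K.e i x) :=
      ((hη i _ h4).fderiv_right (m := 0) (by simp)).continuousAt
    have h6 : ContinuousAt (dbV b (η i)) (K.e i x) := by
      unfold dbV
      exact ((h5.clm_apply continuousAt_const).add
        ((h5.clm_apply continuousAt_const).const_smul Complex.I)).const_smul (2 : ℂ)⁻¹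
    exact (h6.comp ((e_cont i).continuousAt ((K.e i).open_source.mem_nhds hx))).continuousWithinAt
  have h1 : ContinuousOn (fun x => Real.exp (-K.φ i (K.e i x)) *
      (Tn (K.w i (K.e i x)) fun b => dbV b (η i) (K.e i x)).re) (K.e i).source := by
    refine ContinuousOn.mul ?_ ?_
    · refine Real.continuous_exp.comp_continuousOn (ContinuousOn.neg fun x hx => ?_)
      exact ((K.φsm i _ ((K.e i).map_source hx)).continuousAt.comp
        ((e_cont i).continuousAt ((K.e i).open_source.mem_nhds hx))).continuousWithinAt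
    · exact (Tn_contOn (p := p) (S := (K.e i).target) (w := K.w i) (K.wsm i) (K.wpos i)).comp
        (f := fun x => (K.e i x, fun b => dbV b (η i) (K.e i x)))
        ((e_cont i).prodMk hdb) fun x hx => ⟨(K.e i).map_source hx, mem_univ _⟩
  exact h1.congr fun x hx => h3.dT_eq p η hf hη i x hx

theorem lower_dT (h1 : K1Stmt) (h3 : K3Stmt n M K) (i : K.I) {z₀ : Cm n} {R : ℝ}
    (hR : closedBall z₀ R ⊆ (K.e i).target) (p : ℕ) :
    ∃ c : ℝ, 0 < c ∧ ∀ η : K.Fm p, K.IsForm η → K.Smooth η →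
      ∫⁻ z in ball z₀ R, ENNReal.ofReal (‖fun b => dbV b (η i) z‖ ^ 2) ≤
        ENNReal.ofReal c * ∫⁻ x, ENNReal.ofReal (K.dT η x) ∂K.μ := by
  obtain ⟨c, hc, h⟩ := lowerG K i hR
  obtain ⟨c', hc', hb⟩ := Tn_bound h1 (isCompact_closedBall z₀ R)
    (fun z hz => K.wsm i z (hR hz)) (fun z hz => K.wpos i z (hR hz)) p
  refine ⟨c'⁻¹ * c, by positivity, fun η hf hη => ?_⟩
  have hsub : ball z₀ R ⊆ (K.e i).target := ball_subset_closedBall.trans hR
  have h2 := h (fun x => K.dT η x) (fun z => (Tn (K.w i z) fun b => dbV b (η i) z).re)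
    (dT_cont h3 hf hη i) (fun z hz => by
      rw [h3.dT_eq p η hf hη i _ ((K.e i).map_target (hsub hz)), (K.e i).right_inv (hsub hz)])
    (fun z hz => (Complex.le_def.1 (h1.Tn_nonneg n p _ (K.wpos i z (hsub hz)) _)).1)
  calc ∫⁻ z in ball z₀ R, ENNReal.ofReal (‖fun b => dbV b (η i) z‖ ^ 2)
      ≤ ∫⁻ z in ball z₀ R, ENNReal.ofReal c'⁻¹ *
          ENNReal.ofReal ((Tn (K.w i z) fun b => dbV b (η i) z).re) := by
        refine setLIntegral_mono' measurableSet_ball fun z hz => ?_
        rw [← ENNReal.ofReal_mul (by positivity)]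
        refine ENNReal.ofReal_le_ofReal ?_
        have h4 := hb z (ball_subset_closedBall hz) fun b => dbV b (η i) z
        have h5 := mul_le_mul_of_nonneg_left h4 (inv_pos.2 hc').le
        rwa [← mul_assoc, inv_mul_cancel₀ hc'.ne', one_mul] at h5
    _ = ENNReal.ofReal c'⁻¹ * ∫⁻ z in ball z₀ R,
          ENNReal.ofReal ((Tn (K.w i z) fun b => dbV b (η i) z).re) :=
        lintegral_const_mul' _ _ ENNReal.ofReal_ne_top
    _ ≤ ENNReal.ofReal c'⁻¹ * (ENNReal.ofReal c * ∫⁻ x, ENNReal.ofReal (K.dT η x) ∂K.μ) := by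
        gcongr
    _ = _ := by rw [← mul_assoc, ← ENNReal.ofReal_mul (by positivity)]

end Vale.Agent.P284.H366.K
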