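import Vale.Agent.P284.H366.K.Loc
import Vale.Agent.P284.H366.K.Piece

/-!
# Kähler version, K7: limits of almost holomorphic sequences of forms on a ball
-/

open scoped ContDiff Topology ComplexConjugate ENNReal
open MeasureTheory Set Filter Metric

noncomputable section

set_option linter.unusedSectionVars false

namespace Vale.Agent.P284.H366.K

open Vale.Agent.P272.K Vale.Agent.P284.H608.K Vale.Agent.P284.H366

variable {n p : ℕ} {U : Ultrafilter ℕ} {c : Cm n} {R r : ℝ}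

lemma af_bound (A : Af n p) (u : (Fin p → Fin n) → ℂ) :
    ‖A - AF u‖ ^ 2 ≤ ‖(AF : ((Fin p → Fin n) → ℂ) →L[ℂ] Af n p)‖ ^ 2 *
      ∑ J : Fin p → Fin n, ‖A (eJ J) - u J‖ ^ 2 := by
  have h1 : A - AF u = AF (fun J => A (eJ J) - u J) := by
    have h2 : A = AF (fun J => A (eJ J)) := by
      ext ξ
      rw [AF_apply', expandL]
    conv_lhs => rw [h2]
    rw [← map_sub]
    rfl
  rw [h1]
  have h3 : ‖AF (fun J => A (eJ J) - u J)‖ ≤
      ‖(AF : ((Fin p → Fin n) → ℂ) →L[ℂ] Af n p)‖ * ‖fun J => A (eJ J) - u J‖ :=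
    ContinuousLinearMap.le_opNorm _ _
  have h4 : ‖fun J : Fin p → Fin n => A (eJ J) - u J‖ ^ 2 ≤ ∑ J, ‖A (eJ J) - u J‖ ^ 2 := by
    have h5 : ‖fun J : Fin p → Fin n => A (eJ J) - u J‖ ≤
        Real.sqrt (∑ J, ‖A (eJ J) - u J‖ ^ 2) := by
      refine (pi_norm_le_iff_of_nonneg (Real.sqrt_nonneg _)).2 fun J => ?_
      refine Real.le_sqrt_of_sq_le ?_
      exact Finset.single_le_sum (f := fun J => ‖A (eJ J) - u J‖ ^ 2) (fun i _ => sq_nonneg _)
        (Finset.mem_univ J)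
    calc _ ≤ (Real.sqrt (∑ J, ‖A (eJ J) - u J‖ ^ 2)) ^ 2 :=
          pow_le_pow_left₀ (norm_nonneg _) h5 2
      _ = _ := Real.sq_sqrt (Finset.sum_nonneg fun J _ => sq_nonneg _)
  calc _ ≤ (‖(AF : ((Fin p → Fin n) → ℂ) →L[ℂ] Af n p)‖ * ‖fun J => A (eJ J) - u J‖) ^ 2 :=
        pow_le_pow_left₀ (norm_nonneg _) h3 2
    _ = ‖(AF : ((Fin p → Fin n) → ℂ) →L[ℂ] Af n p)‖ ^ 2 * ‖fun J => A (eJ J) - u J‖ ^ 2 :=
        mul_pow _ _ _
    _ ≤ _ := mul_le_mul_of_nonneg_left h4 (sq_nonneg _)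

/-- limits of sequences of forms on a ball -/
theorem form_lim {A : ℕ → Cm n → Af n p} (hr : r < R)
    (h : ∀ ξ : Fin p → Cm n, LSeq (H := fun _ => ℂ) U c R fun k z => A k z ξ) :
    ∃ s : Cm n → Af n p, (∀ z ∈ closedBall c r, AnalyticAt ℂ s z) ∧
      (∀ z ∈ closedBall c r, ∀ ξ, Val U (fun k y => A k y ξ) z (s z ξ)) ∧
      Tendsto (fun k => ∫⁻ z in ball c r, ENNReal.ofReal (‖A k z - s z‖ ^ 2)) U (𝓝 0) := by
  choose u hu1 hu2 hu3 using fun J : Fin p → Fin n => loc_lim hr (h (eJ J))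
  refine ⟨fun z => AF fun J => u J z, fun z hz => AF_analyticAt fun J => hu1 J z hz,
    fun z hz ξ => ?_, ?_⟩
  · have h1 := Val.comb (U := U) (z := z) Finset.univ (f := fun J k y => A k y (eJ J))
      (c := fun J => u J z) (a := fun J _ => cJ ξ J) (fun J _ => hu2 J z hz)
      (fun J _ => contDiffAt_const)
    have e1 : ∀ k y, ∑ J, cJ ξ J * A k y (eJ J) = A k y ξ := fun k y => expandL (A k y) ξ
    have e2 : AF (fun J => u J z) ξ = ∑ J, cJ ξ J * u J z := AF_apply' _ _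
    rw [e2]
    exact h1.congr (Eventually.of_forall fun y k => e1 k y)
  · set N := ‖(AF : ((Fin p → Fin n) → ℂ) →L[ℂ] Af n p)‖ ^ 2 with hN
    have hN0 : 0 ≤ N := sq_nonneg _
    have hci : ∀ J k, IntegrableOn (fun z => ‖A k z (eJ J) - u J z‖ ^ 2) (ball c r) := by
      intro J k
      refine intOn ((ContinuousOn.sub ?_ fun z hz =>
        (hu1 J z hz).continuousAt.continuousWithinAt).norm.pow 2)
      exact ((h (eJ J)).contOn k).mono (closedBall_subset_closedBall hr.le)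
    have hs : Tendsto (fun k => ENNReal.ofReal (N * ∑ J : Fin p → Fin n,
        ∫ z in ball c r, ‖A k z (eJ J) - u J z‖ ^ 2)) U (𝓝 0) := by
      have h1 := tendsto_finsetSum (x := (U : Filter ℕ)) (Finset.univ : Finset (Fin p → Fin n))
        (f := fun J k => ∫ z in ball c r, ‖A k z (eJ J) - u J z‖ ^ 2) (a := fun _ => (0 : ℝ))
        fun J _ => hu3 J
      rw [Finset.sum_const_zero] at h1
      have h2 := ENNReal.tendsto_ofReal (h1.const_mul N)
      rwa [mul_zero, ENNReal.ofReal_zero] at h2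
    refine tendsto_of_tendsto_of_tendsto_of_le_of_le tendsto_const_nhds hs (fun k => bot_le)
      fun k => ?_
    have hsi : IntegrableOn (fun z => N * ∑ J : Fin p → Fin n, ‖A k z (eJ J) - u J z‖ ^ 2)
        (ball c r) := (integrable_finsetSum _ fun J _ => hci J k).const_mul N
    calc ∫⁻ z in ball c r, ENNReal.ofReal (‖A k z - AF fun J => u J z‖ ^ 2)
        ≤ ∫⁻ z in ball c r, ENNReal.ofReal (N * ∑ J : Fin p → Fin n,
            ‖A k z (eJ J) - u J z‖ ^ 2) :=
          lintegral_mono fun z => ENNReal.ofReal_le_ofReal (af_bound _ _)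
      _ = ENNReal.ofReal (∫ z in ball c r, N * ∑ J : Fin p → Fin n,
            ‖A k z (eJ J) - u J z‖ ^ 2) :=
          (ofReal_integral_eq_lintegral_ofReal hsi (Eventually.of_forall fun z =>
            mul_nonneg hN0 (Finset.sum_nonneg fun J _ => sq_nonneg _))).symm
      _ = _ := by
          rw [integral_const_mul, integral_finsetSum _ fun J _ => hci J k]

end Vale.Agent.P284.H366.K
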