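import Vale.Agent.P284.H366.K.Seq

/-!
# Kähler version, K7: the limit form
-/

open scoped ContDiff Topology ComplexConjugate ComplexOrder ENNReal
open MeasureTheory Set Filter Metric

noncomputable section

set_option linter.unusedSectionVars false

namespace Vale.Agent.P284.H366.K

open Vale.Agent.P272.K Vale.Agent.P284.H608.K Vale.Agent.P284.H366

variable {n p : ℕ} {M : Type} [TopologicalSpace M] [T2Space M] [MeasurableSpace M] [BorelSpace M]
  (K : KA n M)

lemma trans_ev (i j : K.I) {z : Cm n} (hz : z ∈ (K.e i).target)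
    (hj : (K.e i).symm z ∈ (K.e j).source) :
    ∀ᶠ y in 𝓝 z, y ∈ (K.e i).target ∧ (K.e i).symm y ∈ (K.e j).source := by
  have h1 : ∀ᶠ y in 𝓝 z, y ∈ (K.e i).target := (K.e i).open_target.mem_nhds hz
  have h2 : ∀ᶠ y in 𝓝 z, (K.e i).symm y ∈ (K.e j).source :=
    ((K.e i).symm.continuousAt hz).preimage_mem_nhds ((K.e j).open_source.mem_nhds hj)
  exact h1.and h2

/-- the derivative of the change of charts is bijective -/
lemma trans_bij (i j : K.I) {z : Cm n} (hz : z ∈ (K.e i).target)
    (hj : (K.e i).symm z ∈ (K.e j).source) :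
    Function.Bijective (fderiv ℂ (fun z => K.e j ((K.e i).symm z)) z) := by
  set T : Cm n → Cm n := fun z => K.e j ((K.e i).symm z) with hTd
  set S : Cm n → Cm n := fun z => K.e i ((K.e j).symm z) with hSd
  have hT : AnalyticAt ℂ T z := K.hol i j z hz hj
  have hTz' : (K.e j).symm (T z) = (K.e i).symm z := (K.e j).left_inv hj
  have hS : AnalyticAt ℂ S (T z) := K.hol j i (T z) ((K.e j).map_source hj)
    (by rw [hTz']; exact (K.e i).map_target hz)
  have e1 : (S ∘ T) =ᶠ[𝓝 z] id := by
    filter_upwards [trans_ev K i j hz hj] with y hy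
    show K.e i ((K.e j).symm (K.e j ((K.e i).symm y))) = y
    rw [(K.e j).left_inv hy.2, (K.e i).right_inv hy.1]
  have d1 : (fderiv ℂ S (T z)).comp (fderiv ℂ T z) = ContinuousLinearMap.id ℂ _ := by
    rw [← fderiv_comp z hS.differentiableAt hT.differentiableAt, e1.fderiv_eq, fderiv_id]
  have hinj : Function.Injective (fderiv ℂ T z) := fun u v huv => by
    have h1 := congrArg (fun A : Cm n →L[ℂ] Cm n => A u) d1
    have h2 := congrArg (fun A : Cm n →L[ℂ] Cm n => A v) d1
    simp only [ContinuousLinearMap.comp_apply, ContinuousLinearMap.id_apply] at h1 h2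
    rw [← h1, ← h2, huv]
  exact ⟨hinj, (LinearMap.injective_iff_surjective (f := (fderiv ℂ T z : Cm n →ₗ[ℂ] Cm n))).1 hinj⟩

variable {K}

/-- the limit form -/
theorem exists_lim (h1 : K1Stmt) (h3 : K3Stmt n M K) {x : ℕ → K.Fm p} (hx : ∀ k, K.Test (x k))
    (hc : Tendsto (fun q : ℕ × ℕ => K.nq (x q.1 - x q.2)) atTop (𝓝 0))
    (hT : Tendsto (fun k => ∫ y, K.dT (x k) y ∂K.μ) atTop (𝓝 0)) {U : Ultrafilter ℕ}
    (hU : (U : Filter ℕ) ≤ atTop) :
    ∃ s : K.Fm p, K.IsForm s ∧ K.Hol s ∧ ∀ i, ∀ z ∈ (K.e i).target, ∃ r : ℝ, 0 < r ∧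
      closedBall z r ⊆ (K.e i).target ∧
      Tendsto (fun k => ∫⁻ y in ball z r, ENNReal.ofReal (‖x k i y - s i y‖ ^ 2)) U (𝓝 0) := by
  classical
  have hloc : ∀ i z, z ∈ (K.e i).target → ∃ (r : ℝ) (L : Cm n → Af n p), 0 < r ∧
      closedBall z r ⊆ (K.e i).target ∧ (∀ y ∈ closedBall z r, AnalyticAt ℂ L y) ∧
      (∀ y ∈ closedBall z r, ∀ ξ, Val U (fun k y => x k i y ξ) y (L y ξ)) ∧
      Tendsto (fun k => ∫⁻ y in ball z r, ENNReal.ofReal (‖x k i y - L y‖ ^ 2)) U (𝓝 0) := by
    intro i z hz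
    obtain ⟨R, hR0, hR⟩ := Metric.nhds_basis_closedBall.mem_iff.1 ((K.e i).open_target.mem_nhds hz)
    have h4 : ∀ ξ : Fin p → Cm n, LSeq (H := fun _ => ℂ) U z R fun k z => x k i z ξ := fun ξ =>
      lseq_of h1 h3 hx hc hT hU i hR0 hR ξ
    obtain ⟨L, hL1, hL2, hL3⟩ := form_lim (r := R / 2) (by linarith) h4
    exact ⟨R / 2, L, by linarith, (closedBall_subset_closedBall (by linarith)).trans hR, hL1, hL2,
      hL3⟩
  choose r L hr0 hr hA hV hTd using hloc
  set s : K.Fm p := fun i z => if hz : z ∈ (K.e i).target then L i z hz z else 0 with hs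
  have hs1 : ∀ i z (hz : z ∈ (K.e i).target), s i z = L i z hz z := fun i z hz => by
    simp only [hs, dif_pos hz]
  have hval : ∀ i z (_ : z ∈ (K.e i).target) ξ, Val U (fun k y => x k i y ξ) z (s i z ξ) := by
    intro i z hz ξ
    rw [hs1 i z hz]
    exact hV i z hz z (mem_closedBall_self (hr0 i z hz).le) ξ
  have heq : ∀ i z (hz : z ∈ (K.e i).target), ∀ y ∈ closedBall z (r i z hz),
      s i y = L i z hz y := by
    intro i z hz y hy
    ext ξ
    exact (hval i y (hr i z hz hy) ξ).unique (hV i z hz y hy ξ)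
  refine ⟨s, ⟨fun i j m hi hj => ?_, fun i z hz => by simp only [hs, dif_neg hz]⟩,
    fun i z hz => ?_, fun i z hz => ⟨r i z hz, hr0 i z hz, hr i z hz, ?_⟩⟩
  · -- change of charts
    set z := K.e i m with hz0
    have hz : z ∈ (K.e i).target := (K.e i).map_source hi
    have hzm : (K.e i).symm z = m := (K.e i).left_inv hi
    have hj' : (K.e i).symm z ∈ (K.e j).source := by rw [hzm]; exact hj
    set T : Cm n → Cm n := fun z => K.e j ((K.e i).symm z) with hTdef
    have hTz : T z = K.e j m := by rw [hTdef]; simp only [hzm]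
    have hTa : AnalyticAt ℂ T z := K.hol i j z hz hj'
    have hTb : Function.Bijective (fderiv ℂ T z) := trans_bij K i j hz hj'
    have hT1 : ContDiffAt ℝ 1 (fderiv ℂ T) z := (hTa.fderiv.contDiffAt).restrict_scalars ℝ
    ext ξ
    have h0 : ∀ l, ContDiffAt ℝ 1 (fun y => fderiv ℂ T y (ξ l)) z := by
      intro l
      have := ((ContinuousLinearMap.apply ℂ (Cm n) (ξ l)).restrictScalars ℝ).contDiff.contDiffAt
        (n := 1) (x := fderiv ℂ T z)
      exact this.comp z hT1
    have ha1 : ContDiffAt ℝ 1 (K.a i j) z := (K.ahol i j z hz hj').contDiffAt.restrict_scalars ℝ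
    have h5 := Val.comb (U := U) (z := z) (Finset.univ : Finset (Fin p → Fin n))
      (f := fun J k y => x k j (T y) (eJ J)) (c := fun J => s j (T z) (eJ J))
      (a := fun J y => K.a i j y * cJ (fun l => fderiv ℂ T y (ξ l)) J)
      (fun J _ => Val.comp (f := fun k y => x k j y (eJ J)) hTa hTb
        (hval j (T z) (by rw [hTz]; exact (K.e j).map_source hj) (eJ J)))
      (fun J _ => ha1.mul (contDiffAt_cJ h0 J))
    have h6 : Val U (fun k y => x k i y ξ) z
        (∑ J, K.a i j z * cJ (fun l => fderiv ℂ T z (ξ l)) J * s j (T z) (eJ J)) := by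
      refine h5.congr ?_
      filter_upwards [trans_ev K i j hz hj'] with y hy k
      have h7 := (hx k).form.change i j ((K.e i).symm y) ((K.e i).map_target hy.1) hy.2
      rw [(K.e i).right_inv hy.1] at h7
      rw [h7]
      show _ = K.a i j y * (x k j (T y)) (fun l => fderiv ℂ T y (ξ l))
      rw [← expandL (x k j (T y)) (fun l => fderiv ℂ T y (ξ l)), Finset.mul_sum]
      exact Finset.sum_congr rfl fun J _ => by rw [smul_eq_mul, mul_assoc]
    rw [(hval i z hz ξ).unique h6]
    show _ = K.a i j z * (s j (K.e j m)) (fun l => fderiv ℂ T z (ξ l))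
    rw [← hTz, ← expandL (s j (T z)) (fun l => fderiv ℂ T z (ξ l)), Finset.mul_sum]
    exact Finset.sum_congr rfl fun J _ => by rw [smul_eq_mul, mul_assoc]
  · refine (hA i z hz z (mem_closedBall_self (hr0 i z hz).le)).congr ?_
    exact mem_of_superset (ball_mem_nhds z (hr0 i z hz)) fun y hy =>
      (heq i z hz y (ball_subset_closedBall hy)).symm
  · refine (hTd i z hz).congr fun k => ?_
    refine setLIntegral_congr_fun measurableSet_ball fun y hy => ?_
    simp only [heq i z hz y (ball_subset_closedBall hy)]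

end Vale.Agent.P284.H366.K
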