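import Vale.Agent.P284.H366.K.AdQ

/-!
# Kähler version, K7: limits of test forms
-/

open scoped ContDiff Topology ComplexConjugate ComplexOrder ENNReal
open MeasureTheory Set Filter Metric

noncomputable section

set_option linter.unusedSectionVars false

namespace Vale.Agent.P284.H366.K

open Vale.Agent.P272.K Vale.Agent.P284.H608.K Vale.Agent.P284.H366

variable {n p : ℕ} {M : Type} [TopologicalSpace M] [T2Space M] [MeasurableSpace M] [BorelSpace M]
  {K : KA n M}

lemma hol_smooth {s : K.Fm p} (hs : K.Hol s) : K.Smooth s := fun i z hz =>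
  (hs i z hz).contDiffAt.restrict_scalars ℝ

/-- **K7** -/
theorem k7_of [SigmaCompactSpace M] (h1 : K1Stmt) (h3 : K3Stmt n M K) : K7Stmt n M K := by
  classical
  intro hφ p x hx hc hT hA
  set U : Ultrafilter ℕ := hyperfilter ℕ with hUd
  have hU : (U : Filter ℕ) ≤ atTop := Nat.hyperfilter_le_atTop
  obtain ⟨s, hsf, hsh, hloc⟩ := exists_lim h1 h3 hx hc hT hU
  refine ⟨s, hsf, hsh, fun i z hz => ?_, ?_⟩
  · obtain ⟨r, hr0, hr, hl⟩ := hloc i z hz
    exact Ad_lim h1 h3 hφ hx hA hU hsh i r hr0 hr hl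
  choose r hr0 hr hl using hloc
  have hsx : ∀ k, K.IsForm (s - x k) := fun k => isForm_sub hsf (hx k).form
  have hsx' : ∀ k, K.Smooth (s - x k) := fun k => smooth_sub (hol_smooth hsh) (hx k).smooth
  -- the pieces
  have hix : ∀ m, K.e (K.ix m) m ∈ (K.e (K.ix m)).target := fun m =>
    (K.e _).map_source (K.cover m).choose_spec
  set P : M → Set M := fun m => (K.e (K.ix m)).symm '' ball (K.e (K.ix m) m)
    (r (K.ix m) (K.e (K.ix m) m) (hix m)) with hP
  have hPo : ∀ m, IsOpen (P m) := fun m => img_open K _ isOpen_ball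
    (ball_subset_closedBall.trans (hr _ _ (hix m)))
  have hPm : ∀ m, m ∈ P m := fun m => ⟨K.e (K.ix m) m, mem_ball_self (hr0 _ _ (hix m)),
    (K.e _).left_inv (K.cover m).choose_spec⟩
  have hPl : ∀ m, Tendsto (fun l => ∫⁻ y in P m, ENNReal.ofReal (K.dn (s - x l) (s - x l) y).re ∂K.μ)
      U (𝓝 0) := by
    intro m
    obtain ⟨C, hC0, hup⟩ := upper_dn h1 h3 (K.ix m) (hr _ _ (hix m)) p
    have t1 := ENNReal.Tendsto.const_mul (a := ENNReal.ofReal C) (hl _ _ (hix m))
      (Or.inr ENNReal.ofReal_ne_top)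
    rw [mul_zero] at t1
    refine tendsto_of_tendsto_of_tendsto_of_le_of_le tendsto_const_nhds t1 (fun k => bot_le)
      fun k => ?_
    refine (hup (s - x k) (hsx k) (hsx' k)).trans (le_of_eq ?_)
    congr 1
    refine lintegral_congr fun z => ?_
    show ENNReal.ofReal (‖s _ z - x k _ z‖ ^ 2) = _
    rw [norm_sub_rev]
  rcases isEmpty_or_nonempty M with hM | hM
  · have : ∀ k, K.nl (s - x k) = 0 := fun k => by
      unfold KA.nl
      rw [Measure.eq_zero_of_isEmpty K.μ, lintegral_zero_measure]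
    simp only [this]
    exact tendsto_const_nhds
  obtain ⟨S, hSc, hS⟩ := countable_cover_nhds_of_sigmaCompact (f := P)
    fun m => (hPo m).mem_nhds (hPm m)
  have hSne : S.Nonempty := by
    by_contra hcon
    rw [not_nonempty_iff_eq_empty] at hcon
    obtain ⟨m⟩ := hM
    have : m ∈ ⋃ x ∈ S, P x := by rw [hS]; exact mem_univ m
    rw [hcon] at this
    simp at this
  obtain ⟨f, hf⟩ := hSc.exists_eq_range hSne
  set O : ℕ → Set M := fun N => ⋃ j ∈ Finset.range N, P (f j) with hO
  have hOl : ∀ N, Tendsto (fun l => ∫⁻ y in O N, ENNReal.ofReal (K.dn (s - x l) (s - x l) y).re ∂K.μ)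
      U (𝓝 0) := by
    intro N
    induction N with
    | zero =>
      simp only [hO, Finset.range_zero, Finset.notMem_empty, iUnion_of_empty, iUnion_empty,
        Measure.restrict_empty, lintegral_zero_measure]
      exact tendsto_const_nhds
    | succ N ih =>
      have e1 : O (N + 1) = P (f N) ∪ O N := by
        simp only [hO, Finset.range_add_one, Finset.set_biUnion_insert]
      have t1 := (hPl (f N)).add ih
      rw [add_zero] at t1
      refine tendsto_of_tendsto_of_tendsto_of_le_of_le tendsto_const_nhds t1 (fun k => bot_le)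
        fun k => ?_
      rw [e1]
      exact lintegral_union_le _ _ _
  have hOmono : Monotone O := fun N N' h => by
    intro y hy
    simp only [hO, mem_iUnion, Finset.mem_range] at hy ⊢
    obtain ⟨j, hj, hyj⟩ := hy
    exact ⟨j, hj.trans_le h, hyj⟩
  have hOu : ⋃ N, O N = univ := by
    rw [eq_univ_iff_forall]
    intro y
    have hy : y ∈ ⋃ x ∈ S, P x := by rw [hS]; exact mem_univ y
    rw [hf] at hy
    simp only [mem_iUnion, mem_range] at hy
    obtain ⟨m, ⟨j, rfl⟩, hyj⟩ := hy
    refine mem_iUnion.2 ⟨j + 1, ?_⟩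
    simp only [hO, mem_iUnion, Finset.mem_range]
    exact ⟨j, Nat.lt_succ_self j, hyj⟩
  have hnl : ∀ k, K.nl (s - x k) = ⨆ N, ∫⁻ y in O N, ENNReal.ofReal
      (K.dn (s - x k) (s - x k) y).re ∂K.μ := by
    intro k
    unfold KA.nl
    rw [← setLIntegral_univ, ← hOu]
    exact setLIntegral_iUnion_of_directed _ hOmono.directed_le
  rw [ENNReal.tendsto_nhds_zero]
  intro ε hε
  have hc2 : Tendsto (fun q : ℕ × ℕ => 2 * K.nl (x q.1 - x q.2)) atTop (𝓝 0) := by
    have t1 := ENNReal.Tendsto.const_mul (a := 2) (ENNReal.tendsto_ofReal hc)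
      (Or.inr (by norm_num))
    rw [ENNReal.ofReal_zero, mul_zero] at t1
    refine t1.congr fun q => ?_
    rw [nl_eq h1 h3 (test_sub (hx q.1) (hx q.2))]
  obtain ⟨⟨N₁, N₂⟩, hN⟩ := eventually_atTop.1 (ENNReal.tendsto_nhds_zero.1 hc2 ε hε)
  filter_upwards [eventually_ge_atTop N₂] with k hk
  rw [hnl k]
  refine iSup_le fun N => ?_
  have hle : ∀ᶠ l in (U : Filter ℕ), ∫⁻ y in O N, ENNReal.ofReal
      (K.dn (s - x k) (s - x k) y).re ∂K.μ ≤
      2 * (∫⁻ y in O N, ENNReal.ofReal (K.dn (s - x l) (s - x l) y).re ∂K.μ) + ε := by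
    filter_upwards [hU (eventually_ge_atTop N₁)] with l hl'
    have h4 : 2 * K.nl (x l - x k) ≤ ε := hN (l, k) ⟨hl', hk⟩
    have m1 : AEMeasurable (fun y => 2 * ENNReal.ofReal (K.dn (x l - x k) (x l - x k) y).re)
        (K.μ.restrict (O N)) :=
      ((dn_int h1 h3 (test_sub (hx l) (hx k))).aemeasurable.ennreal_ofReal.const_mul 2).restrict
    calc ∫⁻ y in O N, ENNReal.ofReal (K.dn (s - x k) (s - x k) y).re ∂K.μ
        ≤ ∫⁻ y in O N, (2 * ENNReal.ofReal (K.dn (s - x l) (s - x l) y).re +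
            2 * ENNReal.ofReal (K.dn (x l - x k) (x l - x k) y).re) ∂K.μ := by
          refine lintegral_mono fun y => ?_
          have h5 := dn_add_le h1 (s - x l) (x l - x k) y
          rw [sub_add_sub_cancel] at h5
          have e2 : (2 : ℝ≥0∞) = ENNReal.ofReal 2 := by simp
          rw [e2, ← ENNReal.ofReal_mul (by norm_num), ← ENNReal.ofReal_mul (by norm_num),
            ← ENNReal.ofReal_add (mul_nonneg (by norm_num) (dn_nonneg h1 _ _))
              (mul_nonneg (by norm_num) (dn_nonneg h1 _ _))]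
          exact ENNReal.ofReal_le_ofReal h5
      _ = 2 * (∫⁻ y in O N, ENNReal.ofReal (K.dn (s - x l) (s - x l) y).re ∂K.μ) +
            2 * ∫⁻ y in O N, ENNReal.ofReal (K.dn (x l - x k) (x l - x k) y).re ∂K.μ := by
          rw [lintegral_add_right' _ m1, lintegral_const_mul' _ _ (by norm_num),
            lintegral_const_mul' _ _ (by norm_num)]
      _ ≤ _ := by
          gcongr
          refine le_trans ?_ h4
          gcongr
          exact setLIntegral_le_lintegral _ _
  have t2 : Tendsto (fun l => 2 * (∫⁻ y in O N, ENNReal.ofReal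
      (K.dn (s - x l) (s - x l) y).re ∂K.μ) + ε) U (𝓝 (2 * 0 + ε)) :=
    (ENNReal.Tendsto.const_mul (hOl N) (Or.inr (by norm_num))).add tendsto_const_nhds
  rw [mul_zero, zero_add] at t2
  exact ge_of_tendsto t2 hle

end Vale.Agent.P284.H366.K
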