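import Vale.Agent.P284.H366.SF
import Vale.Agent.P284.H213.PT.Comp

/-!
# Kähler version, K7: limits of almost holomorphic sequences of functions on a ball
-/

open scoped ContDiff Topology ComplexConjugate InnerProductSpace
open MeasureTheory Set Filter Metric

noncomputable section

set_option linter.unusedSectionVars false

namespace Vale.Agent.P284.H366.K

open Vale.Agent.P272.K Vale.Agent.P272.K.INT Vale.Agent.P284.H513.V Vale.Agent.P284.H366

variable {n : ℕ} {U : Ultrafilter ℕ} {c : Cm n} {R r : ℝ}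

/-! ### the value of the limit at a point -/

/-- the value of the limit of the functions `f k` at the point `z` -/
def Val (U : Ultrafilter ℕ) (f : ℕ → Cm n → ℂ) (z : Cm n) (c : ℂ) : Prop :=
  ∃ v : ℕ → Cm n → ℂ, Appr (H := fun _ => ℂ) U z v f ∧ Tendsto (fun k => v k z) U (𝓝 c)

section val
variable {f g : ℕ → Cm n → ℂ} {z : Cm n} {a a' : ℂ}

lemma Val.unique (h : Val U f z a) (h' : Val U f z a') : a = a' := by
  obtain ⟨v, hv, hc⟩ := h
  obtain ⟨v', hv', hc'⟩ := h'
  have h1 := hv.sub hv'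
  simp only [sub_self] at h1
  have h2 := h1.tendsto_zero
  have h3 : Tendsto (fun k => v k z - v' k z) U (𝓝 (a - a')) := hc.sub hc'
  have h4 : Tendsto (fun k => v k z - v' k z) U (𝓝 0) := tendsto_zero_iff_norm_tendsto_zero.2 h2
  exact sub_eq_zero.1 (tendsto_nhds_unique h3 h4)

lemma Val.congr (h : Val U f z a) (hfg : ∀ᶠ y in 𝓝 z, ∀ k, f k y = g k y) : Val U g z a := by
  obtain ⟨v, hv, hc⟩ := h
  exact ⟨v, hv.congr (Eventually.of_forall fun _ _ => rfl) hfg, hc⟩

lemma Val.comb {ι : Type*} (s : Finset ι) {f : ι → ℕ → Cm n → ℂ} {c : ι → ℂ} {a : ι → Cm n → ℂ}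
    (h : ∀ i ∈ s, Val U (f i) z (c i)) (ha : ∀ i ∈ s, ContDiffAt ℝ 1 (a i) z) :
    Val U (fun k y => ∑ i ∈ s, a i y * f i k y) z (∑ i ∈ s, a i z * c i) := by
  classical
  have h' : ∀ i, ∃ v : ℕ → Cm n → ℂ, i ∈ s → Appr (H := fun _ => ℂ) U z v (f i) ∧
      Tendsto (fun k => v k z) U (𝓝 (c i)) := fun i => by
    by_cases hi : i ∈ s
    · obtain ⟨v, hv⟩ := h i hi
      exact ⟨v, fun _ => hv⟩
    · exact ⟨fun _ _ => 0, fun h => absurd h hi⟩
  choose v hv using h'
  refine ⟨fun k y => ∑ i ∈ s, a i y * v i k y, ?_, ?_⟩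
  · exact Appr.sum (H := fun _ => ℂ) s fun i hi => ((hv i hi).1.smul (ha i hi))
  · exact tendsto_finsetSum s fun i hi => (hv i hi).2.const_mul _

lemma Val.comp {T : Cm n → Cm n} (hT : AnalyticAt ℂ T z)
    (hb : Function.Bijective (fderiv ℂ T z)) (h : Val U f (T z) a) :
    Val U (fun k y => f k (T y)) z a := by
  obtain ⟨v, hv, hc⟩ := h
  exact ⟨fun k y => v k (T y), H213.PT.compStmt n (fun _ => ℂ) U T z hT hb v f hv, hc⟩

end val

/-- **A sequence of smooth functions on a ball, bounded in `L²` and with `∂̄φ_k → 0` in `L²`, converges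
in `L²` of the smaller balls to a holomorphic function**, along every ultrafilter. -/
theorem loc_lim (hr : r < R) {φ : ℕ → Cm n → ℂ}
    (h : LSeq (H := fun _ => ℂ) U c R φ) :
    ∃ s : Cm n → ℂ, (∀ z ∈ closedBall c r, AnalyticAt ℂ s z) ∧
      (∀ z ∈ closedBall c r, Val U φ z (s z)) ∧
      Tendsto (fun k => ∫ z in ball c r, ‖φ k z - s z‖ ^ 2) U (𝓝 0) := by
  set δ := (R - r) / 2 with hδ
  have hδ0 : 0 < δ := by rw [hδ]; linarith
  obtain ⟨η, Θ, m⟩ := exists_mol (n := n) hδ0
  set r' := r + δ with hr'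
  have hR : r' + δ ≤ R := by rw [hr', hδ]; linarith
  obtain ⟨B, hv⟩ := h.vb m hR
  have hrr : closedBall c r ⊆ ball c r' := closedBall_subset_ball (by rw [hr']; linarith)
  set S : Cm n → ℂ := fun z => ⟪H366.mk (H := fun _ => ℂ) U (fun _ => (1 : ℂ)), slim U η φ z⟫_ℂ
    with hS
  have hb1 : Bd (H := fun _ => ℂ) fun _ => (1 : ℂ) := ⟨1, fun _ => by simp⟩
  have hlim : ∀ z ∈ closedBall c r', Tendsto (fun k => mv η (φ k) z) U (𝓝 (S z)) := by
    intro z hz
    have h1 := inner_mk (U := U) hb1 (hv.bdd hz)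
    refine h1.congr fun k => ?_
    simp
  have hunif : ∀ ε : ℝ, 0 < ε → ∀ᶠ k in (U : Filter ℕ), ∀ z ∈ closedBall c r,
      ‖mv η (φ k) z - S z‖ ≤ ε := fun ε hε =>
    unif (isCompact_closedBall c r) hv.nn
      (fun k z hz z' hz' => by
        rw [dist_eq_norm]
        exact hv.lip k z (ball_subset_closedBall (hrr hz)) z' (ball_subset_closedBall (hrr hz')))
      (fun z hz => hlim z (ball_subset_closedBall (hrr hz))) hε
  have hSan : ∀ z ∈ ball c r', AnalyticAt ℂ S z := by
    intro z hz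
    have h1 := hv.analyticAt hz
    exact ((innerSL ℂ (H366.mk (H := fun _ => ℂ) U (fun _ => (1 : ℂ)))).analyticAt _).comp h1
  have hSc : ContinuousOn S (closedBall c r) := fun z hz =>
    (hSan z (hrr hz)).continuousAt.continuousWithinAt
  refine ⟨S, fun z hz => hSan z (hrr hz), fun z hz =>
    ⟨fun k => mv η (φ k), h.appr m hδ0.le hR (hrr hz),
      hlim z (ball_subset_closedBall (hrr hz))⟩, ?_⟩
  have hvc : ∀ k, ContinuousOn (mv η (φ k)) (closedBall c r) := fun k =>
    (hv.contOn k).mono (hrr.trans ball_subset_closedBall)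
  have hφc : ∀ k, ContinuousOn (φ k) (closedBall c r) := fun k =>
    (h.contOn k).mono (closedBall_subset_closedBall hr.le)
  have hclose : Tendsto (fun k => ∫ z in ball c r, ‖mv η (φ k) z - φ k z‖ ^ 2) U (𝓝 0) := by
    refine squeeze_zero (fun k => integral_nonneg fun z => sq_nonneg _) (fun k => ?_) (h.close m hR)
    refine setIntegral_mono_set ?_ (Eventually.of_forall fun z => sq_nonneg _)
      (ball_subset_closedBall.trans hrr).eventuallyLE
    refine intOn ?_
    exact ((hv.contOn k).sub ((h.contOn k).mono (closedBall_subset_closedBall (by linarith)))).norm.pow 2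
  have hun2 : Tendsto (fun k => ∫ z in ball c r, ‖mv η (φ k) z - S z‖ ^ 2) U (𝓝 0) := by
    rw [Metric.tendsto_nhds]
    intro ε hε
    set V := volume.real (ball c r) with hV
    have hV0 : 0 ≤ V := measureReal_nonneg
    set ε' := min 1 (ε / (2 * (V + 1))) with hε'
    have hε'0 : 0 < ε' := lt_min one_pos (by positivity)
    filter_upwards [hunif ε' hε'0] with k hk
    rw [Real.dist_eq, sub_zero, abs_of_nonneg (integral_nonneg fun z => sq_nonneg _)]
    have h1 : ∫ z in ball c r, ‖mv η (φ k) z - S z‖ ^ 2 ≤ ∫ z in ball c r, ε' := by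
      refine setIntegral_mono_on (intOn (((hvc k).sub hSc).norm.pow 2))
        (integrableOn_const (by simp [measure_ball_lt_top.ne])) measurableSet_ball fun z hz => ?_
      have h2 := hk z (ball_subset_closedBall hz)
      have h3 : ‖mv η (φ k) z - S z‖ ≤ 1 := h2.trans (min_le_left _ _)
      calc ‖mv η (φ k) z - S z‖ ^ 2 ≤ ‖mv η (φ k) z - S z‖ * 1 := by
            rw [sq]; exact mul_le_mul_of_nonneg_left h3 (norm_nonneg _)
        _ ≤ ε' := by rw [mul_one]; exact h2
    have h4 : ∫ z in ball c r, ε' = V * ε' := by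
      rw [setIntegral_const, smul_eq_mul]
    rw [h4] at h1
    have h5 : V * ε' ≤ V * (ε / (2 * (V + 1))) := mul_le_mul_of_nonneg_left (min_le_right _ _) hV0
    have h6 : V * (ε / (2 * (V + 1))) < ε := by
      rw [mul_div_assoc', div_lt_iff₀ (by positivity)]
      nlinarith
    linarith
  have h7 : Tendsto (fun k => 2 * (∫ z in ball c r, ‖mv η (φ k) z - φ k z‖ ^ 2) +
      2 * ∫ z in ball c r, ‖mv η (φ k) z - S z‖ ^ 2) U (𝓝 0) := by
    simpa using (hclose.const_mul 2).add (hun2.const_mul 2)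
  refine squeeze_zero (fun k => integral_nonneg fun z => sq_nonneg _) (fun k => ?_) h7
  have j1 : IntegrableOn (fun z => 2 * ‖mv η (φ k) z - φ k z‖ ^ 2) (ball c r) :=
    (intOn (((hvc k).sub (hφc k)).norm.pow 2)).const_mul 2
  have j2 : IntegrableOn (fun z => 2 * ‖mv η (φ k) z - S z‖ ^ 2) (ball c r) :=
    (intOn (((hvc k).sub hSc).norm.pow 2)).const_mul 2
  rw [← integral_const_mul, ← integral_const_mul, ← integral_add j1 j2]
  refine setIntegral_mono_on (intOn (((hφc k).sub hSc).norm.pow 2)) (j1.add j2)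
    measurableSet_ball fun z _ => ?_
  have h8 : ‖φ k z - S z‖ ≤ ‖mv η (φ k) z - φ k z‖ + ‖mv η (φ k) z - S z‖ := by
    have := norm_sub_le (mv η (φ k) z - S z) (mv η (φ k) z - φ k z)
    rw [sub_sub_sub_cancel_left] at this
    linarith
  have h9 := pow_le_pow_left₀ (norm_nonneg _) h8 2
  nlinarith [sq_nonneg (‖mv η (φ k) z - φ k z‖ - ‖mv η (φ k) z - S z‖)]

end Vale.Agent.P284.H366.K
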