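import Vale.Agent.P284.H366.K.FLim

/-!
# Kähler version, K7: sequences of test forms, in the charts
-/

open scoped ContDiff Topology ComplexConjugate ComplexOrder ENNReal
open MeasureTheory Set Filter Metric

noncomputable section

set_option linter.unusedSectionVars false

namespace Vale.Agent.P284.H366.K

open Vale.Agent.P272.K Vale.Agent.P284.H608.K Vale.Agent.P284.H366

variable {n p : ℕ}

/-! ### local estimates -/

lemma bochner_le {f : Cm n → ℝ} {S : Set (Cm n)} (h0 : ∀ z, 0 ≤ f z) {D : ℝ} (hD : 0 ≤ D)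
    (h : ∫⁻ z in S, ENNReal.ofReal (f z) ≤ ENNReal.ofReal D) : ∫ z in S, f z ≤ D := by
  by_cases hf : AEStronglyMeasurable f (volume.restrict S)
  · rw [integral_eq_lintegral_of_nonneg_ae (Eventually.of_forall h0) hf]
    exact ENNReal.toReal_le_of_le_ofReal hD h
  · rw [integral_non_aestronglyMeasurable hf]
    exact hD

lemma dzb_form {f : Cm n → Af n p} {z : Cm n} (hf : DifferentiableAt ℝ f z) (ξ : Fin p → Cm n)
    (b : Fin n) : dzb b (fun y => f y ξ) z = dbV b f z ξ := by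
  have h1 : ∀ t, fderiv ℝ (fun y => f y ξ) z t = fderiv ℝ f z t ξ := fun t =>
    fderiv_clm hf (ContinuousAlternatingMap.apply ℂ (Cm n) ℂ ξ) t
  unfold dzb dbV
  rw [h1, h1]
  show _ = (2 : ℂ)⁻¹ * (fderiv ℝ f z (Pi.single b 1) ξ +
    Complex.I * fderiv ℝ f z (Pi.single b Complex.I) ξ)
  ring

lemma DB_form_le {f : Cm n → Af n p} {z : Cm n} (hf : DifferentiableAt ℝ f z)
    (ξ : Fin p → Cm n) :
    ‖DB (fun y => f y ξ) z‖ ≤ n * (∏ i, ‖ξ i‖) * ‖fun b => dbV b f z‖ := by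
  have hP : 0 ≤ ∏ i, ‖ξ i‖ := Finset.prod_nonneg fun i _ => norm_nonneg _
  refine ContinuousLinearMap.opNorm_le_bound _ (by positivity) fun t => ?_
  rw [DB_complex]
  have h1 : ∀ j, ‖conj (t j) * dzb j (fun y => f y ξ) z‖ ≤
      (∏ i, ‖ξ i‖) * ‖fun b => dbV b f z‖ * ‖t‖ := by
    intro j
    rw [dzb_form hf, norm_mul, RCLike.norm_conj]
    have h2 : ‖dbV j f z ξ‖ ≤ ‖fun b => dbV b f z‖ * ∏ i, ‖ξ i‖ :=
      ((dbV j f z).le_opNorm ξ).trans (mul_le_mul_of_nonneg_right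
        (norm_le_pi_norm (fun b => dbV b f z) j) hP)
    calc ‖t j‖ * ‖dbV j f z ξ‖ ≤ ‖t‖ * (‖fun b => dbV b f z‖ * ∏ i, ‖ξ i‖) :=
          mul_le_mul (norm_le_pi_norm t j) h2 (norm_nonneg _) (norm_nonneg _)
      _ = _ := by ring
  calc ‖∑ j, conj (t j) * dzb j (fun y => f y ξ) z‖
      ≤ ∑ j : Fin n, (∏ i, ‖ξ i‖) * ‖fun b => dbV b f z‖ * ‖t‖ :=
        (norm_sum_le _ _).trans (Finset.sum_le_sum fun j _ => h1 j)
    _ = _ := by
        rw [Finset.sum_const, Finset.card_univ, Fintype.card_fin, nsmul_eq_mul]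
        ring

/-! ### forms -/

variable {M : Type} [TopologicalSpace M] [T2Space M] [MeasurableSpace M] [BorelSpace M]
  {K : KA n M}

lemma isForm_sub {a b : K.Fm p} (ha : K.IsForm a) (hb : K.IsForm b) : K.IsForm (a - b) := by
  refine ⟨fun i j x hi hj => ?_, fun i z hz => ?_⟩
  · show a i _ - b i _ = _ • (a j _ - b j _).compContinuousLinearMap _
    rw [ha.change i j x hi hj, hb.change i j x hi hj]
    ext ξ
    exact (mul_sub (K.a i j (K.e i x)) _ _).symm
  · show a i z - b i z = 0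
    rw [ha.off i z hz, hb.off i z hz, sub_zero]

lemma smooth_sub {a b : K.Fm p} (ha : K.Smooth a) (hb : K.Smooth b) : K.Smooth (a - b) :=
  fun i z hz => (ha i z hz).sub (hb i z hz)

lemma test_sub {a b : K.Fm p} (ha : K.Test a) (hb : K.Test b) : K.Test (a - b) := by
  obtain ⟨C, hC, hCo⟩ := ha.supp
  obtain ⟨D, hD, hDo⟩ := hb.supp
  refine ⟨isForm_sub ha.form hb.form, smooth_sub ha.smooth hb.smooth, C ∪ D, hC.union hD,
    fun i x hx hxn => ?_⟩
  show a i _ - b i _ = 0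
  rw [hCo i x hx fun h => hxn (Or.inl h), hDo i x hx fun h => hxn (Or.inr h), sub_zero]

lemma hn_add_le (h1 : K1Stmt) {w : Matrix (Fin n) (Fin n) ℂ} (hw : w.PosDef) (A B : Af n p) :
    (hn w (A + B) (A + B)).re ≤ 2 * (hn w A A).re + 2 * (hn w B B).re := by
  have h2 := hn_sub_le h1 hw A ((-1 : ℂ) • B)
  rw [hn_smul_self, norm_neg, norm_one, one_pow, one_mul] at h2
  have h3 : A - (-1 : ℂ) • B = A + B := ext_ev fun s => by
    show ev A s - (-1 : ℂ) * ev B s = ev A s + ev B s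
    ring
  rwa [h3] at h2

lemma wpos_ix (x : M) : (K.w (K.ix x) (K.e (K.ix x) x)).PosDef :=
  K.wpos _ _ ((K.e _).map_source (K.cover x).choose_spec)

lemma dn_sub_le (h1 : K1Stmt) (a b : K.Fm p) (x : M) :
    (K.dn (a - b) (a - b) x).re ≤ 2 * (K.dn a a x).re + 2 * (K.dn b b x).re := by
  unfold KA.dn
  simp only [Complex.re_ofReal_mul]
  have h2 := mul_le_mul_of_nonneg_left (hn_sub_le h1 (wpos_ix (K := K) x)
    (a (K.ix x) (K.e (K.ix x) x)) (b (K.ix x) (K.e (K.ix x) x)))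
    (Real.exp_pos (-K.φ (K.ix x) (K.e (K.ix x) x))).le
  refine h2.trans (le_of_eq ?_)
  ring

lemma dn_add_le (h1 : K1Stmt) (a b : K.Fm p) (x : M) :
    (K.dn (a + b) (a + b) x).re ≤ 2 * (K.dn a a x).re + 2 * (K.dn b b x).re := by
  unfold KA.dn
  simp only [Complex.re_ofReal_mul]
  have h2 := mul_le_mul_of_nonneg_left (hn_add_le h1 (wpos_ix (K := K) x)
    (a (K.ix x) (K.e (K.ix x) x)) (b (K.ix x) (K.e (K.ix x) x)))
    (Real.exp_pos (-K.φ (K.ix x) (K.e (K.ix x) x))).le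
  refine h2.trans (le_of_eq ?_)
  ring

section
variable (h1 : K1Stmt) (h3 : K3Stmt n M K)
include h1 h3

lemma dn_int {η : K.Fm p} (hη : K.Test η) : Integrable (fun x => (K.dn η η x).re) K.μ :=
  (h3.int p η η hη hη.form hη.smooth).1.re

lemma nq_eq {η : K.Fm p} (hη : K.Test η) : K.nq η = ∫ x, (K.dn η η x).re ∂K.μ :=
  (Complex.reCLM.integral_comp_comm (h3.int p η η hη hη.form hη.smooth).1).symm

lemma nq_nonneg {η : K.Fm p} (hη : K.Test η) : 0 ≤ K.nq η := by
  rw [nq_eq h1 h3 hη]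
  exact integral_nonneg fun x => dn_nonneg h1 η x

lemma nl_eq {η : K.Fm p} (hη : K.Test η) : K.nl η = ENNReal.ofReal (K.nq η) := by
  rw [nq_eq h1 h3 hη, ofReal_integral_eq_lintegral_ofReal (dn_int h1 h3 hη)
    (Eventually.of_forall fun x => dn_nonneg h1 η x)]
  rfl

lemma nq_le {a b : K.Fm p} (ha : K.Test a) (hb : K.Test b) :
    K.nq a ≤ 2 * K.nq (a - b) + 2 * K.nq b := by
  rw [nq_eq h1 h3 ha, nq_eq h1 h3 hb, nq_eq h1 h3 (test_sub ha hb), ← integral_const_mul,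
    ← integral_const_mul, ← integral_add ((dn_int h1 h3 (test_sub ha hb)).const_mul 2)
      ((dn_int h1 h3 hb).const_mul 2)]
  refine integral_mono (dn_int h1 h3 ha) (((dn_int h1 h3 (test_sub ha hb)).const_mul 2).add
    ((dn_int h1 h3 hb).const_mul 2)) fun x => ?_
  have := dn_add_le h1 (a - b) b x
  rwa [sub_add_cancel] at this

lemma nq_bdd {x : ℕ → K.Fm p} (hx : ∀ k, K.Test (x k))
    (hc : Tendsto (fun q : ℕ × ℕ => K.nq (x q.1 - x q.2)) atTop (𝓝 0)) :
    ∃ B : ℝ, 0 ≤ B ∧ ∀ k, K.nq (x k) ≤ B := by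
  obtain ⟨⟨N, N'⟩, hN⟩ := eventually_atTop.1 (hc.eventually (gt_mem_nhds one_pos))
  set m := max N N' with hm
  refine ⟨2 + 2 * K.nq (x m) + ∑ k ∈ Finset.range m, K.nq (x k), ?_, fun k => ?_⟩
  · have h4 := nq_nonneg h1 h3 (hx m)
    have h5 : 0 ≤ ∑ k ∈ Finset.range m, K.nq (x k) :=
      Finset.sum_nonneg fun k _ => nq_nonneg h1 h3 (hx k)
    linarith
  · have h4 := nq_nonneg h1 h3 (hx m)
    have h5 : 0 ≤ ∑ k ∈ Finset.range m, K.nq (x k) :=
      Finset.sum_nonneg fun k _ => nq_nonneg h1 h3 (hx k)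
    rcases lt_or_ge k m with h | h
    · have := Finset.single_le_sum (f := fun k => K.nq (x k)) (fun k _ => nq_nonneg h1 h3 (hx k))
        (Finset.mem_range.2 h)
      linarith
    · have h6 := hN (k, m) ⟨(le_max_left N N').trans h, le_max_right N N'⟩
      have h7 := nq_le h1 h3 (hx k) (hx m)
      have h8 : K.nq (x k - x m) < 1 := h6
      linarith

theorem lseq_of {x : ℕ → K.Fm p} (hx : ∀ k, K.Test (x k))
    (hc : Tendsto (fun q : ℕ × ℕ => K.nq (x q.1 - x q.2)) atTop (𝓝 0))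
    (hT : Tendsto (fun k => ∫ y, K.dT (x k) y ∂K.μ) atTop (𝓝 0)) {U : Ultrafilter ℕ}
    (hU : (U : Filter ℕ) ≤ atTop) (i : K.I) {z₀ : Cm n} {R : ℝ} (hR0 : 0 < R)
    (hR : closedBall z₀ R ⊆ (K.e i).target) (ξ : Fin p → Cm n) :
    LSeq (H := fun _ => ℂ) U z₀ R fun k z => x k i z ξ := by
  have hsub : ball z₀ R ⊆ (K.e i).target := ball_subset_closedBall.trans hR
  set P := ∏ i, ‖ξ i‖ with hP
  have hP0 : 0 ≤ P := Finset.prod_nonneg fun i _ => norm_nonneg _
  refine ⟨hR0, fun k z hz => ?_, ?_, ?_⟩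
  · have h4 := (hx k).smooth i z (hR hz)
    exact (((ContinuousAlternatingMap.apply ℂ (Cm n) ℂ ξ).restrictScalars ℝ).contDiff.contDiffAt).comp
      z h4
  · obtain ⟨c, hc0, hlow⟩ := lower_dn h1 h3 i hR p
    obtain ⟨B, hB0, hB⟩ := nq_bdd h1 h3 hx hc
    refine ⟨P ^ 2 * (c * B), fun k => bochner_le (fun z => sq_nonneg _) (by positivity) ?_⟩
    calc ∫⁻ z in ball z₀ R, ENNReal.ofReal (‖x k i z ξ‖ ^ 2)
        ≤ ∫⁻ z in ball z₀ R, ENNReal.ofReal (P ^ 2) * ENNReal.ofReal (‖x k i z‖ ^ 2) := by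
          refine lintegral_mono fun z => ?_
          rw [← ENNReal.ofReal_mul (sq_nonneg _), ← mul_pow, mul_comm P]
          exact ENNReal.ofReal_le_ofReal (pow_le_pow_left₀ (norm_nonneg _) ((x k i z).le_opNorm ξ) 2)
      _ = ENNReal.ofReal (P ^ 2) * ∫⁻ z in ball z₀ R, ENNReal.ofReal (‖x k i z‖ ^ 2) :=
          lintegral_const_mul' _ _ ENNReal.ofReal_ne_top
      _ ≤ ENNReal.ofReal (P ^ 2) * (ENNReal.ofReal c * ENNReal.ofReal B) := by
          gcongr
          refine (hlow (x k) (hx k).form (hx k).smooth).trans ?_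
          gcongr
          rw [nl_eq h1 h3 (hx k)]
          exact ENNReal.ofReal_le_ofReal (hB k)
      _ = _ := by
          rw [← ENNReal.ofReal_mul hc0.le, ← ENNReal.ofReal_mul (sq_nonneg _)]
  · obtain ⟨c, hc0, hlow⟩ := lower_dT h1 h3 i hR p
    have hdT0 : ∀ k, 0 ≤ ∫ y, K.dT (x k) y ∂K.μ := fun k => by
      refine integral_nonneg fun y => ?_
      exact mul_nonneg (Real.exp_pos _).le
        (Complex.le_def.1 (h1.Tn_nonneg n p _ (wpos_ix (K := K) y) _)).1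
    have h5 : Tendsto (fun k => (n * P) ^ 2 * (c * ∫ y, K.dT (x k) y ∂K.μ)) U (𝓝 0) := by
      have := ((hT.mono_left hU).const_mul c).const_mul ((n * P) ^ 2)
      rwa [mul_zero, mul_zero] at this
    refine squeeze_zero (fun k => integral_nonneg fun z => sq_nonneg _) (fun k => ?_) h5
    refine bochner_le (fun z => sq_nonneg _) (mul_nonneg (sq_nonneg _)
      (mul_nonneg hc0.le (hdT0 k))) ?_
    calc ∫⁻ z in ball z₀ R, ENNReal.ofReal (‖DB (fun y => x k i y ξ) z‖ ^ 2)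
        ≤ ∫⁻ z in ball z₀ R, ENNReal.ofReal ((n * P) ^ 2) *
            ENNReal.ofReal (‖fun b => dbV b (x k i) z‖ ^ 2) := by
          refine setLIntegral_mono' measurableSet_ball fun z hz => ?_
          rw [← ENNReal.ofReal_mul (sq_nonneg _), ← mul_pow]
          exact ENNReal.ofReal_le_ofReal (pow_le_pow_left₀ (norm_nonneg _)
            (DB_form_le (((hx k).smooth i z (hsub hz)).differentiableAt (by simp)) ξ) 2)
      _ = ENNReal.ofReal ((n * P) ^ 2) *
            ∫⁻ z in ball z₀ R, ENNReal.ofReal (‖fun b => dbV b (x k i) z‖ ^ 2) :=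
          lintegral_const_mul' _ _ ENNReal.ofReal_ne_top
      _ ≤ ENNReal.ofReal ((n * P) ^ 2) * (ENNReal.ofReal c *
            ENNReal.ofReal (∫ y, K.dT (x k) y ∂K.μ)) := by
          gcongr
          refine (hlow (x k) (hx k).form (hx k).smooth).trans (le_of_eq ?_)
          rw [ofReal_integral_eq_lintegral_ofReal (h3.intT p (x k) (hx k)).1
            (Eventually.of_forall fun y => mul_nonneg (Real.exp_pos _).le
              (Complex.le_def.1 (h1.Tn_nonneg n p _ (wpos_ix (K := K) y) _)).1)]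
      _ = _ := by
          rw [← ENNReal.ofReal_mul hc0.le, ← ENNReal.ofReal_mul (sq_nonneg _)]

end

end Vale.Agent.P284.H366.K
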